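import Vale.Agent.P247.H137.Uni

/-!
# P247, package U: summary
-/

namespace Vale.Agent.P247.H137

/-- the uniformisation statement, unconditionally -/
theorem U_all : Vale.Agent.P247.H74.U_statement := U U1

end Vale.Agent.P247.H137
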