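import Vale.Agent.P247.H74.Wien
import Vale.Agent.P299.H582.Kir.Fourier

/-!
# P247, U-BEL: Fourier series of smooth periodic functions on the plane
-/

open scoped ContDiff Topology ComplexConjugate
open Set MeasureTheory Filter Metric

noncomputable section

namespace Vale.Agent.P247.H137

open Vale.Agent.P247.H74

/-- the lattice of frequencies -/
abbrev Z2 : Type := ℤ × ℤ

/-- smooth periodic complex functions -/
structure SP (f : P2 → ℂ) : Prop where
  smooth : ContDiff ℝ ∞ f
  per : Per f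

/-- the derivative in the direction `v` -/
def dv (v : P2) (f : P2 → ℂ) (p : P2) : ℂ := fderiv ℝ f p v

theorem ds_eq (f : P2 → ℂ) : ds f = dv (1, 0) f := rfl
theorem dt_eq (f : P2 → ℂ) : dt f = dv (0, 1) f := rfl

theorem per_iff {E : Type*} {f : P2 → E} :
    Per f ↔ ∀ (m n : ℤ) (p : P2), f (p + ((m : ℝ), (n : ℝ))) = f p := Iff.rfl

namespace SP

variable {f g : P2 → ℂ}

theorem diff (hf : SP f) (p : P2) : DifferentiableAt ℝ f p :=
  (hf.smooth.differentiable (by simp)) p

theorem cont (hf : SP f) : Continuous f := hf.smooth.continuous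

theorem add (hf : SP f) (hg : SP g) : SP fun p => f p + g p :=
  ⟨hf.smooth.add hg.smooth, fun m n p => by rw [hf.per, hg.per]⟩

theorem sub (hf : SP f) (hg : SP g) : SP fun p => f p - g p :=
  ⟨hf.smooth.sub hg.smooth, fun m n p => by rw [hf.per, hg.per]⟩

theorem neg (hf : SP f) : SP fun p => - f p :=
  ⟨hf.smooth.neg, fun m n p => by rw [hf.per]⟩

theorem mul (hf : SP f) (hg : SP g) : SP fun p => f p * g p :=
  ⟨hf.smooth.mul hg.smooth, fun m n p => by rw [hf.per, hg.per]⟩

theorem const (c : ℂ) : SP fun _ => c := ⟨contDiff_const, fun _ _ _ => rfl⟩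

theorem star (hf : SP f) : SP fun p => conj (f p) :=
  ⟨Complex.conjCLE.contDiff.comp hf.smooth, fun m n p => by rw [hf.per]⟩

theorem sum {ι : Type*} {s : Finset ι} {F : ι → P2 → ℂ} (hF : ∀ i ∈ s, SP (F i)) :
    SP fun p => ∑ i ∈ s, F i p :=
  ⟨ContDiff.sum fun i hi => (hF i hi).smooth,
    fun m n p => Finset.sum_congr rfl fun i hi => (hF i hi).per m n p⟩

theorem exp (hf : SP f) : SP fun p => Complex.exp (f p) :=
  ⟨Complex.contDiff_exp.comp hf.smooth, fun m n p => by rw [hf.per]⟩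

theorem inv (hf : SP f) (h0 : ∀ p, f p ≠ 0) : SP fun p => (f p)⁻¹ :=
  ⟨hf.smooth.inv h0, fun m n p => by rw [hf.per]⟩

theorem dv (hf : SP f) (v : P2) : SP (dv v f) := by
  refine ⟨?_, ?_⟩
  · have h1 : ContDiff ℝ ∞ (fderiv ℝ f) := hf.smooth.fderiv_right (by simp)
    exact h1.clm_apply contDiff_const
  · intro m n p
    have h1 : f = fun q => f (q + ((m : ℝ), (n : ℝ))) := by
      funext q; exact (hf.per m n q).symm
    show fderiv ℝ f (p + ((m : ℝ), (n : ℝ))) v = fderiv ℝ f p v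
    have h2 : fderiv ℝ (fun q => f (q + ((m : ℝ), (n : ℝ)))) p =
        fderiv ℝ f (p + ((m : ℝ), (n : ℝ))) := fderiv_comp_add_right _
    rw [← h2, ← h1]

theorem bdd (hf : SP f) : ∃ C, 0 ≤ C ∧ ∀ p, ‖f p‖ ≤ C := by
  obtain ⟨C, hC⟩ := (isCompact_Icc (a := (0 : P2)) (b := 1)).exists_bound_of_continuousOn
    hf.cont.continuousOn
  refine ⟨C, le_trans (norm_nonneg _) (hC 0 ⟨le_refl _, zero_le_one⟩), fun p => ?_⟩
  have h1 : f p = f (Int.fract p.1, Int.fract p.2) := by
    have := hf.per (-⌊p.1⌋) (-⌊p.2⌋) p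
    rw [← this]
    congr 1
    ext
    · simp only [Int.cast_neg]
      exact (Int.self_sub_floor p.1).symm ▸ rfl
    · simp only [Int.cast_neg]
      exact (Int.self_sub_floor p.2).symm ▸ rfl
  rw [h1]
  exact hC _ ⟨⟨Int.fract_nonneg _, Int.fract_nonneg _⟩,
    ⟨(Int.fract_lt_one _).le, (Int.fract_lt_one _).le⟩⟩

end SP

/-! ## derivative rules -/

section
variable {f g : P2 → ℂ} (v : P2)

theorem dv_add (hf : SP f) (hg : SP g) : dv v (fun p => f p + g p) = fun p => dv v f p + dv v g p := by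
  funext p
  simp only [dv]
  rw [fderiv_fun_add (hf.diff p) (hg.diff p)]
  rfl

theorem dv_sub (hf : SP f) (hg : SP g) : dv v (fun p => f p - g p) = fun p => dv v f p - dv v g p := by
  funext p
  simp only [dv]
  rw [fderiv_fun_sub (hf.diff p) (hg.diff p)]
  rfl

theorem dv_mul (hf : SP f) (hg : SP g) :
    dv v (fun p => f p * g p) = fun p => dv v f p * g p + f p * dv v g p := by
  funext p
  simp only [dv]
  rw [fderiv_fun_mul (hf.diff p) (hg.diff p)]
  simp only [add_apply, smul_apply, smul_eq_mul]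
  ring

theorem dv_const_mul (hf : SP f) (c : ℂ) : dv v (fun p => c * f p) = fun p => c * dv v f p := by
  funext p
  simp only [dv]
  rw [fderiv_const_mul (hf.diff p)]
  rfl

theorem dv_const (c : ℂ) : dv v (fun _ => c) = fun _ => 0 := by
  funext p
  simp [dv]

theorem dv_star (hf : SP f) : dv v (fun p => conj (f p)) = fun p => conj (dv v f p) := by
  funext p
  simp only [dv]
  have h1 : HasFDerivAt (fun p => conj (f p))
      ((Complex.conjCLE : ℂ →L[ℝ] ℂ).comp (fderiv ℝ f p)) p :=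
    (Complex.conjCLE : ℂ →L[ℝ] ℂ).hasFDerivAt.comp p (hf.diff p).hasFDerivAt
  rw [h1.fderiv]
  rfl

theorem dv_exp (hf : SP f) :
    dv v (fun p => Complex.exp (f p)) = fun p => Complex.exp (f p) * dv v f p := by
  funext p
  simp only [dv]
  rw [(hf.diff p).hasFDerivAt.cexp.fderiv]
  rfl

theorem dv_sum {ι : Type*} {s : Finset ι} {F : ι → P2 → ℂ} (hF : ∀ i ∈ s, SP (F i)) :
    dv v (fun p => ∑ i ∈ s, F i p) = fun p => ∑ i ∈ s, dv v (F i) p := by
  funext p
  simp only [dv]
  rw [fderiv_fun_sum fun i hi => (hF i hi).diff p]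
  simp

theorem dv_vec (hf : SP f) (a b : ℝ) (p : P2) :
    dv (a, b) f p = a * ds f p + b * dt f p := by
  simp only [dv, ds, dt]
  have h : ((a, b) : P2) = a • (1, 0) + b • (0, 1) := by ext <;> simp
  rw [h, map_add, map_smul, map_smul]
  simp

end

/-! ## characters -/

/-- the multiplier of `dv v` -/
def la (v : P2) (n : Z2) : ℂ := 2 * Real.pi * Complex.I * ((n.1 : ℂ) * (v.1 : ℂ) + (n.2 : ℂ) * (v.2 : ℂ))

theorem ch_eq (n : Z2) (p : P2) : ch n p = Complex.exp (la p n) := rfl

theorem norm_ch (n : Z2) (p : P2) : ‖ch n p‖ = 1 := by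
  have h : la p n = ((2 * Real.pi * (n.1 * p.1 + n.2 * p.2) : ℝ) : ℂ) * Complex.I := by
    unfold la; push_cast; ring
  rw [ch_eq, h, Complex.norm_exp_ofReal_mul_I]

theorem ch_zero (p : P2) : ch 0 p = 1 := by simp [ch]

theorem ch_add (m n : Z2) (p : P2) : ch (m + n) p = ch m p * ch n p := by
  rw [ch_eq, ch_eq, ch_eq, ← Complex.exp_add]
  congr 1
  simp only [la, Prod.fst_add, Prod.snd_add]
  push_cast; ring

theorem ch_conj (n : Z2) (p : P2) : conj (ch n p) = ch (-n) p := by
  rw [ch_eq, ch_eq, ← Complex.exp_conj]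
  congr 1
  simp only [la, map_mul, map_add, Complex.conj_I, Complex.conj_ofReal, map_ofNat, map_intCast,
    Prod.fst_neg, Prod.snd_neg]
  push_cast; ring

theorem hasFDerivAt_ch (n : Z2) (p : P2) : HasFDerivAt (ch n)
    (ch n p • ((2 * Real.pi * Complex.I * (n.1 : ℂ)) •
      (Complex.ofRealCLM.comp (ContinuousLinearMap.fst ℝ ℝ ℝ)) +
      (2 * Real.pi * Complex.I * (n.2 : ℂ)) •
      (Complex.ofRealCLM.comp (ContinuousLinearMap.snd ℝ ℝ ℝ)))) p := by
  have h1 : HasFDerivAt (fun q : P2 => (2 * Real.pi * Complex.I * (n.1 : ℂ)) * ((q.1 : ℝ) : ℂ) +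
      (2 * Real.pi * Complex.I * (n.2 : ℂ)) * ((q.2 : ℝ) : ℂ))
      ((2 * Real.pi * Complex.I * (n.1 : ℂ)) •
      (Complex.ofRealCLM.comp (ContinuousLinearMap.fst ℝ ℝ ℝ)) +
      (2 * Real.pi * Complex.I * (n.2 : ℂ)) •
      (Complex.ofRealCLM.comp (ContinuousLinearMap.snd ℝ ℝ ℝ))) p := by
    have h2 : HasFDerivAt (fun q : P2 => ((q.1 : ℝ) : ℂ))
        (Complex.ofRealCLM.comp (ContinuousLinearMap.fst ℝ ℝ ℝ)) p :=
      (Complex.ofRealCLM.comp (ContinuousLinearMap.fst ℝ ℝ ℝ)).hasFDerivAt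
    have h3 : HasFDerivAt (fun q : P2 => ((q.2 : ℝ) : ℂ))
        (Complex.ofRealCLM.comp (ContinuousLinearMap.snd ℝ ℝ ℝ)) p :=
      (Complex.ofRealCLM.comp (ContinuousLinearMap.snd ℝ ℝ ℝ)).hasFDerivAt
    exact (h2.const_mul _).add (h3.const_mul _)
  have h4 := h1.cexp
  have h5 : (fun q : P2 => Complex.exp ((2 * Real.pi * Complex.I * (n.1 : ℂ)) * ((q.1 : ℝ) : ℂ) +
      (2 * Real.pi * Complex.I * (n.2 : ℂ)) * ((q.2 : ℝ) : ℂ))) = ch n := by
    funext q
    rw [ch_eq]
    congr 1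
    simp only [la]; ring
  have h6 : Complex.exp ((2 * Real.pi * Complex.I * (n.1 : ℂ)) * ((p.1 : ℝ) : ℂ) +
      (2 * Real.pi * Complex.I * (n.2 : ℂ)) * ((p.2 : ℝ) : ℂ)) = ch n p := congrFun h5 p
  rw [h5, h6] at h4
  exact h4

theorem ch_int (n : Z2) (a b : ℤ) : ch n ((a : ℝ), (b : ℝ)) = 1 := by
  rw [ch_eq, Complex.exp_eq_one_iff]
  refine ⟨n.1 * a + n.2 * b, ?_⟩
  simp only [la]
  push_cast
  ring

theorem ch_add_right (n : Z2) (p q : P2) : ch n (p + q) = ch n p * ch n q := by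
  rw [ch_eq, ch_eq, ch_eq, ← Complex.exp_add]
  congr 1
  simp only [la, Prod.fst_add, Prod.snd_add]
  push_cast; ring

theorem SP_ch (n : Z2) : SP (ch n) := by
  refine ⟨?_, ?_⟩
  · have h : ch n = fun q : P2 => Complex.exp ((2 * Real.pi * Complex.I * (n.1 : ℂ)) * ((q.1 : ℝ) : ℂ) +
      (2 * Real.pi * Complex.I * (n.2 : ℂ)) * ((q.2 : ℝ) : ℂ)) := by
      funext q
      rw [ch_eq]
      congr 1
      simp only [la]; ring
    rw [h]
    refine Complex.contDiff_exp.comp ((contDiff_const.mul ?_).add (contDiff_const.mul ?_))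
    · exact Complex.ofRealCLM.contDiff.comp contDiff_fst
    · exact Complex.ofRealCLM.contDiff.comp contDiff_snd
  · rw [per_iff]
    intro a b p
    rw [ch_add_right, ch_int, mul_one]

theorem dv_ch (v : P2) (n : Z2) : dv v (ch n) = fun p => la v n * ch n p := by
  funext p
  simp only [dv]
  rw [(hasFDerivAt_ch n p).fderiv]
  simp only [smul_apply, add_apply,
    ContinuousLinearMap.comp_apply, ContinuousLinearMap.coe_fst', ContinuousLinearMap.coe_snd',
    Complex.ofRealCLM_apply, smul_eq_mul, la]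
  ring

/-! ## means -/

theorem integrable_of_cont {E : Type*} [NormedAddCommGroup E] {f : P2 → E} (hf : Continuous f) :
    IntegrableOn f (Icc (0 : P2) 1) := hf.continuousOn.integrableOn_compact isCompact_Icc

theorem mean_add {E : Type*} [NormedAddCommGroup E] [NormedSpace ℝ E] {f g : P2 → E}
    (hf : Continuous f) (hg : Continuous g) :
    mean (fun p => f p + g p) = mean f + mean g :=
  integral_add (integrable_of_cont hf) (integrable_of_cont hg)

theorem mean_sub {E : Type*} [NormedAddCommGroup E] [NormedSpace ℝ E] {f g : P2 → E}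
    (hf : Continuous f) (hg : Continuous g) :
    mean (fun p => f p - g p) = mean f - mean g :=
  integral_sub (integrable_of_cont hf) (integrable_of_cont hg)

theorem mean_const_mul (c : ℂ) (f : P2 → ℂ) : mean (fun p => c * f p) = c * mean f :=
  integral_const_mul c f

theorem mean_sum {ι : Type*} {E : Type*} [NormedAddCommGroup E] [NormedSpace ℝ E]
    {s : Finset ι} {F : ι → P2 → E} (hF : ∀ i ∈ s, Continuous (F i)) :
    mean (fun p => ∑ i ∈ s, F i p) = ∑ i ∈ s, mean (F i) :=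
  integral_finsetSum s fun i hi => integrable_of_cont (hF i hi)

theorem volume_unit : (volume (Icc (0 : P2) 1)) = 1 := by
  have h : (Icc (0 : P2) 1) = Icc (0 : ℝ) 1 ×ˢ Icc (0 : ℝ) 1 := by
    rw [Icc_prod_Icc]; rfl
  rw [h, Measure.volume_eq_prod, Measure.prod_prod]
  simp

theorem mean_const {E : Type*} [NormedAddCommGroup E] [NormedSpace ℝ E] [CompleteSpace E] (c : E) :
    mean (fun _ => c) = c := by
  simp only [mean]
  rw [setIntegral_const, measureReal_def, volume_unit]
  simp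

theorem norm_mean_le {E : Type*} [NormedAddCommGroup E] [NormedSpace ℝ E] {f : P2 → E} {C : ℝ}
    (h : ∀ p, ‖f p‖ ≤ C) : ‖mean f‖ ≤ C := by
  have h1 := norm_setIntegral_le_of_norm_le_const (μ := volume) (s := Icc (0 : P2) 1) (f := f)
    (C := C) (by rw [volume_unit]; simp) (fun p _ => h p)
  rw [measureReal_def, volume_unit, ENNReal.toReal_one, mul_one] at h1
  exact h1

theorem mean_mono {f g : P2 → ℝ} (hf : Continuous f) (hg : Continuous g) (h : ∀ p, f p ≤ g p) :
    mean f ≤ mean g :=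
  setIntegral_mono (integrable_of_cont hf) (integrable_of_cont hg) h

theorem mean_nonneg {f : P2 → ℝ} (h : ∀ p, 0 ≤ f p) : 0 ≤ mean f :=
  integral_nonneg h

theorem mean_ofReal (f : P2 → ℝ) : mean (fun p => ((f p : ℝ) : ℂ)) = ((mean f : ℝ) : ℂ) :=
  integral_ofReal

theorem mean_conj (f : P2 → ℂ) : mean (fun p => conj (f p)) = conj (mean f) :=
  integral_conj

theorem mean_dv (v : P2) {f : P2 → ℂ} (hf : SP f) : mean (dv v f) = 0 := by
  have h1 := integral_divergence_prod_Icc_of_hasFDerivAt_off_countable_of_le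
    (fun p => (v.1 : ℂ) * f p) (fun p => (v.2 : ℂ) * f p)
    (fun p => (v.1 : ℂ) • fderiv ℝ f p) (fun p => (v.2 : ℂ) • fderiv ℝ f p) (0 : P2) 1
    zero_le_one ∅ countable_empty (continuous_const.mul hf.cont).continuousOn
    (continuous_const.mul hf.cont).continuousOn
    (fun p _ => (hf.diff p).hasFDerivAt.const_mul _) (fun p _ => (hf.diff p).hasFDerivAt.const_mul _)
    (by
      refine integrable_of_cont ?_
      exact (continuous_const.mul (hf.dv (1, 0)).cont).add (continuous_const.mul (hf.dv (0, 1)).cont))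
  have h2 : ∀ x : ℝ, f (x, (1 : P2).2) = f (x, (0 : P2).2) := by
    intro x
    have := hf.per 0 1 (x, 0)
    simpa using this
  have h3 : ∀ y : ℝ, f ((1 : P2).1, y) = f ((0 : P2).1, y) := by
    intro y
    have := hf.per 1 0 (0, y)
    simpa using this
  simp only [h2, h3, sub_self, zero_add] at h1
  rw [← h1]
  simp only [mean]
  refine integral_congr_ae (Eventually.of_forall fun p => ?_)
  have := dv_vec hf v.1 v.2 p
  simpa [ds, dt, dv] using this

end Vale.Agent.P247.H137
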