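import Vale.Agent.P247.H137.Fou

/-!
# P247, U-BEL: Fourier coefficients and series
-/

open scoped ContDiff Topology ComplexConjugate
open Set MeasureTheory Filter Metric

noncomputable section

namespace Vale.Agent.P247.H137

open Vale.Agent.P247.H74

/-- Fourier coefficient -/
def co (n : Z2) (f : P2 → ℂ) : ℂ := mean fun p => ch (-n) p * f p

theorem cont_ch (n : Z2) : Continuous (ch n) := (SP_ch n).cont

theorem la_neg (v : P2) (n : Z2) : la v (-n) = - la v n := by
  simp only [la, Prod.fst_neg, Prod.snd_neg]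
  push_cast; ring

theorem co_dv (n : Z2) (v : P2) {f : P2 → ℂ} (hf : SP f) : co n (dv v f) = la v n * co n f := by
  have h1 := mean_dv v ((SP_ch (-n)).mul hf)
  have c1 : Continuous fun p => (la v (-n) * ch (-n) p) * f p :=
    (continuous_const.mul (cont_ch _)).mul hf.cont
  have c2 : Continuous fun p => ch (-n) p * dv v f p := (cont_ch _).mul (hf.dv v).cont
  rw [dv_mul v (SP_ch (-n)) hf, dv_ch, mean_add c1 c2] at h1
  have h2 : (mean fun p => la v (-n) * ch (-n) p * f p) = la v (-n) * co n f := by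
    rw [co, ← mean_const_mul]
    congr 1
    funext p
    ring
  rw [h2, la_neg] at h1
  show mean (fun p => ch (-n) p * dv v f p) = _
  linear_combination h1

theorem la_one (n : Z2) : la (1, 0) n = 2 * Real.pi * Complex.I * n.1 := by simp [la]

theorem la_two (n : Z2) : la (0, 1) n = 2 * Real.pi * Complex.I * n.2 := by simp [la]

theorem two_pi_I_ne : (2 * Real.pi * Complex.I : ℂ) ≠ 0 := Complex.two_pi_I_ne_zero

theorem exists_la_ne {n : Z2} (hn : n ≠ 0) : la (1, 0) n ≠ 0 ∨ la (0, 1) n ≠ 0 := by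
  by_contra h
  push Not at h
  rw [la_one, la_two] at h
  apply hn
  have h1 := (mul_eq_zero.1 h.1).resolve_left two_pi_I_ne
  have h2 := (mul_eq_zero.1 h.2).resolve_left two_pi_I_ne
  ext
  · exact_mod_cast h1
  · exact_mod_cast h2

theorem mean_ch (n : Z2) : mean (ch n) = if n = 0 then 1 else 0 := by
  split_ifs with hn
  · subst hn
    have : ch 0 = fun _ => (1 : ℂ) := funext ch_zero
    rw [this, mean_const]
  · have key : ∀ v : P2, la v n ≠ 0 → mean (ch n) = 0 := by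
      intro v hv
      have h1 := mean_dv v (SP_ch n)
      rw [dv_ch, mean_const_mul] at h1
      exact (mul_eq_zero.1 h1).resolve_left hv
    rcases exists_la_ne hn with h | h
    · exact key _ h
    · exact key _ h

theorem co_ch (n m : Z2) : co n (ch m) = if n = m then 1 else 0 := by
  have h : (fun p => ch (-n) p * ch m p) = ch (m - n) := by
    funext p
    rw [← ch_add]
    congr 1
    abel
  rw [co, h, mean_ch]
  simp only [sub_eq_zero, eq_comm]

theorem co_add (n : Z2) {f g : P2 → ℂ} (hf : Continuous f) (hg : Continuous g) :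
    co n (fun p => f p + g p) = co n f + co n g := by
  have c1 : Continuous fun p => ch (-n) p * f p := (cont_ch _).mul hf
  have c2 : Continuous fun p => ch (-n) p * g p := (cont_ch _).mul hg
  rw [co, co, co, ← mean_add c1 c2]
  congr 1; funext p; ring

theorem co_sub (n : Z2) {f g : P2 → ℂ} (hf : Continuous f) (hg : Continuous g) :
    co n (fun p => f p - g p) = co n f - co n g := by
  have c1 : Continuous fun p => ch (-n) p * f p := (cont_ch _).mul hf
  have c2 : Continuous fun p => ch (-n) p * g p := (cont_ch _).mul hg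
  rw [co, co, co, ← mean_sub c1 c2]
  congr 1; funext p; ring

theorem co_const_mul (n : Z2) (c : ℂ) (f : P2 → ℂ) : co n (fun p => c * f p) = c * co n f := by
  rw [co, co, ← mean_const_mul]
  congr 1; funext p; ring

theorem co_const (n : Z2) (c : ℂ) : co n (fun _ => c) = if n = 0 then c else 0 := by
  have h : (fun _ : P2 => c) = fun p => c * ch 0 p := by funext p; rw [ch_zero, mul_one]
  rw [h, co_const_mul, co_ch]
  split_ifs <;> simp

theorem norm_co_le (n : Z2) {f : P2 → ℂ} {C : ℝ} (h : ∀ p, ‖f p‖ ≤ C) : ‖co n f‖ ≤ C := by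
  refine norm_mean_le fun p => ?_
  rw [norm_mul, norm_ch, one_mul]
  exact h p

/-! ## completeness -/

theorem integral_cube_two (F : P2 → ℂ) :
    ∫ t in P299.H582.cube (0 : Fin 2 → ℝ), F (t 0, t 1) = mean F := by
  have h1 : P299.H582.cube (0 : Fin 2 → ℝ) =
      (MeasurableEquiv.finTwoArrow (α := ℝ)) ⁻¹' (Ioc (0 : ℝ) 1 ×ˢ Ioc (0 : ℝ) 1) := by
    ext t
    simp [P299.H582.cube, Fin.forall_fin_two]
  have h2 := (volume_preserving_finTwoArrow ℝ).setIntegral_preimage_emb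
    (MeasurableEquiv.finTwoArrow (α := ℝ)).measurableEmbedding F (Ioc (0 : ℝ) 1 ×ˢ Ioc (0 : ℝ) 1)
  rw [← h1] at h2
  have h3 : (fun t : Fin 2 → ℝ => F (MeasurableEquiv.finTwoArrow t)) = fun t => F (t 0, t 1) := rfl
  rw [h3] at h2
  rw [h2, mean]
  refine setIntegral_congr_set ?_
  have h4 : (Icc (0 : P2) 1) = Icc (0 : ℝ) 1 ×ˢ Icc (0 : ℝ) 1 := by
    rw [Icc_prod_Icc]; rfl
  rw [h4]
  exact Measure.set_prod_ae_eq Ioc_ae_eq_Icc Ioc_ae_eq_Icc

theorem eq_zero_of_co {f : P2 → ℂ} (hf : Continuous f) (hp : Per f) (h : ∀ n, co n f = 0) (p : P2) :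
    f p = 0 := by
  set g : (Fin 2 → ℝ) → ℂ := fun t => f (t 0, t 1) with hg
  have hgp : P299.H582.IsPer g := by
    intro k t
    exact hp (k 0) (k 1) (t 0, t 1)
  have hgc : Continuous g :=
    hf.comp ((continuous_apply 0).prodMk (continuous_apply 1))
  have hz : ∀ l : Fin 2 → ℤ, ∫ t in P299.H582.cube (0 : Fin 2 → ℝ), P299.H582.ch l t * g t = 0 := by
    intro l
    have h1 := integral_cube_two (fun p => ch (l 0, l 1) p * f p)
    have h2 : (fun t : Fin 2 → ℝ => P299.H582.ch l t * g t) =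
        fun t => ch (l 0, l 1) (t 0, t 1) * f (t 0, t 1) := by
      funext t
      simp [P299.H582.ch, ch, hg, Fin.sum_univ_two]
    rw [h2, h1]
    have h3 := h (-(l 0, l 1))
    rw [co, neg_neg] at h3
    exact h3
  have := hgp.eq_zero hgc hz ![p.1, p.2]
  simpa [hg] using this

/-! ## rapidly decreasing families -/

/-- rapidly decreasing -/
def Rap (a : Z2 → ℂ) : Prop := ∀ N : ℕ, Summable fun n => ‖a n‖ * wt n ^ N

theorem one_le_wt (n : Z2) : 1 ≤ wt n := by
  have h1 := abs_nonneg (n.1 : ℝ)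
  have h2 := abs_nonneg (n.2 : ℝ)
  unfold wt; linarith

theorem wt_pos (n : Z2) : 0 < wt n := zero_lt_one.trans_le (one_le_wt n)

theorem summable_int_sq : Summable fun k : ℤ => ((1 + |(k : ℝ)|) ^ 2)⁻¹ := by
  have h1 : Summable fun k : ℤ => ((1 + |(k : ℝ)|) ^ 2)⁻¹ := by
    rw [summable_int_iff_summable_nat_and_neg]
    have h2 : Summable fun k : ℕ => (((k : ℝ) + 1) ^ 2)⁻¹ := by
      have h3 : Summable fun k : ℕ => (((k : ℝ)) ^ 2)⁻¹ := Real.summable_nat_pow_inv.2 (by norm_num)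
      have h4 := (summable_nat_add_iff 1).2 h3
      refine h4.congr fun k => ?_
      push_cast; rfl
    constructor
    · refine h2.congr fun k => ?_
      simp only [Int.cast_natCast, Nat.abs_cast, add_comm]
    · refine h2.congr fun k => ?_
      simp only [Int.cast_neg, abs_neg, Int.cast_natCast, Nat.abs_cast, add_comm]
  exact h1

theorem summable_wt : Summable fun n : Z2 => (wt n ^ 4)⁻¹ := by
  have h1 := summable_int_sq.mul_of_nonneg summable_int_sq (fun _ => by positivity)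
    (fun _ => by positivity)
  refine Summable.of_nonneg_of_le (fun n => by have := wt_pos n; positivity) (fun n => ?_) h1
  rw [← mul_inv]
  have h2 := abs_nonneg (n.1 : ℝ)
  have h3 := abs_nonneg (n.2 : ℝ)
  refine inv_anti₀ (by positivity) ?_
  have h4 : (1 + |(n.1 : ℝ)|) ^ 2 ≤ wt n ^ 2 := by
    refine pow_le_pow_left₀ (by positivity) ?_ 2
    unfold wt; linarith
  have h5 : (1 + |(n.2 : ℝ)|) ^ 2 ≤ wt n ^ 2 := by
    refine pow_le_pow_left₀ (by positivity) ?_ 2
    unfold wt; linarith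
  calc (1 + |(n.1 : ℝ)|) ^ 2 * (1 + |(n.2 : ℝ)|) ^ 2 ≤ wt n ^ 2 * wt n ^ 2 :=
        mul_le_mul h4 h5 (by positivity) (by have := wt_pos n; positivity)
    _ = wt n ^ 4 := by ring

theorem rap_of_bound {a : Z2 → ℂ} (h : ∀ N : ℕ, ∃ C, ∀ n, ‖a n‖ * wt n ^ N ≤ C) : Rap a := by
  intro N
  obtain ⟨C, hC⟩ := h (N + 4)
  refine Summable.of_nonneg_of_le (fun n => by have := wt_pos n; positivity) (fun n => ?_)
    (summable_wt.mul_left C)
  have h1 := hC n
  have h2 := wt_pos n
  rw [← div_eq_mul_inv, le_div_iff₀ (by positivity)]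
  calc ‖a n‖ * wt n ^ N * wt n ^ 4 = ‖a n‖ * wt n ^ (N + 4) := by ring
    _ ≤ C := h1

theorem Rap.of_le {a b : Z2 → ℂ} (hb : Rap b) (C : ℝ) (M : ℕ)
    (h : ∀ n, ‖a n‖ ≤ C * ‖b n‖ * wt n ^ M) : Rap a := by
  intro N
  refine Summable.of_nonneg_of_le (fun n => by have := wt_pos n; positivity) (fun n => ?_)
    ((hb (M + N)).mul_left C)
  have h2 := wt_pos n
  calc ‖a n‖ * wt n ^ N ≤ (C * ‖b n‖ * wt n ^ M) * wt n ^ N :=
        mul_le_mul_of_nonneg_right (h n) (by positivity)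
    _ = C * (‖b n‖ * wt n ^ (M + N)) := by ring

theorem norm_la_le (v : P2) (n : Z2) : ‖la v n‖ ≤ (2 * Real.pi * (|v.1| + |v.2|)) * wt n := by
  have h1 : ‖la v n‖ = 2 * Real.pi * |n.1 * v.1 + n.2 * v.2| := by
    have h : la v n = ((2 * Real.pi * (n.1 * v.1 + n.2 * v.2) : ℝ) : ℂ) * Complex.I := by
      unfold la; push_cast; ring
    rw [h, norm_mul, Complex.norm_I, mul_one, Complex.norm_real, Real.norm_eq_abs, abs_mul,
      abs_of_pos Real.two_pi_pos]
  rw [h1, mul_assoc (2 * Real.pi)]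
  refine mul_le_mul_of_nonneg_left ?_ Real.two_pi_pos.le
  have a1 := abs_nonneg (n.1 : ℝ)
  have a2 := abs_nonneg (n.2 : ℝ)
  have a3 := abs_nonneg v.1
  have a4 := abs_nonneg v.2
  calc |(n.1 : ℝ) * v.1 + n.2 * v.2| ≤ |(n.1 : ℝ)| * |v.1| + |(n.2 : ℝ)| * |v.2| := by
        refine (abs_add_le _ _).trans ?_
        rw [abs_mul, abs_mul]
    _ ≤ (|v.1| + |v.2|) * wt n := by
        unfold wt
        nlinarith [mul_nonneg a1 a4, mul_nonneg a2 a3]

theorem Rap.mul_la {a : Z2 → ℂ} (ha : Rap a) (v : P2) : Rap fun n => la v n * a n := by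
  refine ha.of_le (2 * Real.pi * (|v.1| + |v.2|)) 1 fun n => ?_
  rw [norm_mul, pow_one]
  calc ‖la v n‖ * ‖a n‖ ≤ ((2 * Real.pi * (|v.1| + |v.2|)) * wt n) * ‖a n‖ :=
        mul_le_mul_of_nonneg_right (norm_la_le v n) (norm_nonneg _)
    _ = _ := by ring

theorem Rap.summable {a : Z2 → ℂ} (ha : Rap a) : Summable fun n => ‖a n‖ := by
  have := ha 0
  simpa using this

theorem Rap.summable_ch {a : Z2 → ℂ} (ha : Rap a) (p : P2) : Summable fun n => a n * ch n p := by
  refine Summable.of_norm (ha.summable.congr fun n => ?_)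
  rw [norm_mul, norm_ch, mul_one]

/-- the Fourier series -/
def evC (a : Z2 → ℂ) (p : P2) : ℂ := ∑' n, a n * ch n p

/-- the real linear functional with the given values on the basis -/
def lf (x y : ℂ) : P2 →L[ℝ] ℂ :=
  x • (Complex.ofRealCLM.comp (ContinuousLinearMap.fst ℝ ℝ ℝ)) +
    y • (Complex.ofRealCLM.comp (ContinuousLinearMap.snd ℝ ℝ ℝ))

theorem lf_apply (x y : ℂ) (v : P2) : lf x y v = x * v.1 + y * v.2 := by
  simp [lf]

theorem norm_lf_le (x y : ℂ) : ‖lf x y‖ ≤ ‖x‖ + ‖y‖ := by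
  refine ContinuousLinearMap.opNorm_le_bound _ (by positivity) fun v => ?_
  rw [lf_apply]
  have h1 : ‖v.1‖ ≤ ‖v‖ := norm_fst_le v
  have h2 : ‖v.2‖ ≤ ‖v‖ := norm_snd_le v
  calc ‖x * v.1 + y * v.2‖ ≤ ‖x‖ * ‖v.1‖ + ‖y‖ * ‖v.2‖ := by
        refine (norm_add_le _ _).trans ?_
        rw [norm_mul, norm_mul, Complex.norm_real, Complex.norm_real]
    _ ≤ (‖x‖ + ‖y‖) * ‖v‖ := by
        nlinarith [mul_le_mul_of_nonneg_left h1 (norm_nonneg x),
          mul_le_mul_of_nonneg_left h2 (norm_nonneg y)]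

theorem hasFDerivAt_evC {a : Z2 → ℂ} (ha : Rap a) (p : P2) :
    HasFDerivAt (evC a) (lf (evC (fun n => la (1, 0) n * a n) p)
      (evC (fun n => la (0, 1) n * a n) p)) p := by
  have h1 := (ha.mul_la (1, 0)).summable
  have h2 := (ha.mul_la (0, 1)).summable
  have h3 : HasFDerivAt (fun y => ∑' n, a n * ch n y)
      (∑' n, lf ((la (1, 0) n * a n) * ch n p) ((la (0, 1) n * a n) * ch n p)) p := by
    refine hasFDerivAt_tsum (u := fun n => ‖la (1, 0) n * a n‖ + ‖la (0, 1) n * a n‖) (h1.add h2)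
      (f' := fun n p => lf ((la (1, 0) n * a n) * ch n p) ((la (0, 1) n * a n) * ch n p))
      (fun n q => ?_) (fun n q => ?_) (x₀ := 0) (ha.summable_ch 0) p
    · have h4 := (hasFDerivAt_ch n q).const_mul (a n)
      refine h4.congr_fderiv ?_
      ext <;> simp [lf, la] <;> ring
    · refine (norm_lf_le _ _).trans (le_of_eq ?_)
      rw [norm_mul _ (ch n q), norm_mul _ (ch n q), norm_ch, mul_one, mul_one]
  refine h3.congr_fderiv ?_
  have hs : Summable fun n => lf ((la (1, 0) n * a n) * ch n p) ((la (0, 1) n * a n) * ch n p) := by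
    refine Summable.of_norm_bounded (h1.add h2) fun n => ?_
    refine (norm_lf_le _ _).trans (le_of_eq ?_)
    rw [norm_mul _ (ch n p), norm_mul _ (ch n p), norm_ch, mul_one, mul_one]
  refine ContinuousLinearMap.ext fun v => ?_
  have h5 := (ContinuousLinearMap.apply ℝ ℂ v).map_tsum hs
  simp only [ContinuousLinearMap.apply_apply] at h5
  rw [h5, lf_apply, evC, evC, ← tsum_mul_right, ← tsum_mul_right,
    ← Summable.tsum_add]
  · refine tsum_congr fun n => ?_
    rw [lf_apply]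
  · exact ((ha.mul_la (1, 0)).summable_ch p).mul_right _
  · exact ((ha.mul_la (0, 1)).summable_ch p).mul_right _

theorem contDiff_evC_nat (k : ℕ) : ∀ {a : Z2 → ℂ}, Rap a → ContDiff ℝ k (evC a) := by
  induction k with
  | zero =>
    intro a ha
    exact contDiff_zero.2 (continuous_iff_continuousAt.2 fun p => (hasFDerivAt_evC ha p).continuousAt)
  | succ k ih =>
    intro a ha
    have hcast : ((k + 1 : ℕ) : WithTop ℕ∞) = (k : WithTop ℕ∞) + 1 := by push_cast; rfl
    rw [hcast, contDiff_succ_iff_fderiv]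
    refine ⟨fun p => (hasFDerivAt_evC ha p).differentiableAt, fun h => by simp at h, ?_⟩
    have h1 : fderiv ℝ (evC a) = fun p => lf (evC (fun n => la (1, 0) n * a n) p)
      (evC (fun n => la (0, 1) n * a n) p) := funext fun p => (hasFDerivAt_evC ha p).fderiv
    rw [h1]
    exact ((ih (ha.mul_la (1, 0))).smul contDiff_const).add
      ((ih (ha.mul_la (0, 1))).smul contDiff_const)

theorem SP_evC {a : Z2 → ℂ} (ha : Rap a) : SP (evC a) := by
  refine ⟨contDiff_infty.2 fun k => contDiff_evC_nat k ha, fun m n p => ?_⟩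
  exact tsum_congr fun k => by rw [(SP_ch k).per m n p]

theorem dv_evC (v : P2) {a : Z2 → ℂ} (ha : Rap a) : dv v (evC a) = evC fun n => la v n * a n := by
  funext p
  simp only [dv]
  rw [(hasFDerivAt_evC ha p).fderiv, lf_apply, evC, evC, ← tsum_mul_right, ← tsum_mul_right,
    ← Summable.tsum_add]
  · refine tsum_congr fun n => ?_
    simp only [la]
    push_cast
    ring
  · exact ((ha.mul_la (1, 0)).summable_ch p).mul_right _
  · exact ((ha.mul_la (0, 1)).summable_ch p).mul_right _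

theorem norm_evC_le {a : Z2 → ℂ} (ha : Summable fun n => ‖a n‖) (p : P2) :
    ‖evC a p‖ ≤ ∑' n, ‖a n‖ := by
  have h1 : Summable fun n => ‖a n * ch n p‖ := ha.congr fun n => by
    rw [norm_mul, norm_ch, mul_one]
  refine (norm_tsum_le_tsum_norm h1).trans (le_of_eq ?_)
  exact tsum_congr fun n => by rw [norm_mul, norm_ch, mul_one]

theorem mean_evC_mul {a : Z2 → ℂ} (ha : Summable fun n => ‖a n‖) {F : P2 → ℂ} (hF : Continuous F) :
    mean (fun p => F p * evC a p) = ∑' n, a n * mean (fun p => F p * ch n p) := by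
  obtain ⟨C, hC⟩ := (isCompact_Icc (a := (0 : P2)) (b := 1)).exists_bound_of_continuousOn
    hF.continuousOn
  have h1 : (fun p => F p * evC a p) = fun p => ∑' n, F p * (a n * ch n p) := by
    funext p
    rw [evC, tsum_mul_left]
  have h3 : ∀ n, IntegrableOn (fun p => F p * (a n * ch n p)) (Icc (0 : P2) 1) := fun n =>
    integrable_of_cont (hF.mul (continuous_const.mul (cont_ch n)))
  have h4 : ∀ n, ∫ p in Icc (0 : P2) 1, ‖F p * (a n * ch n p)‖ ≤ C * ‖a n‖ := by
    intro n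
    have h5 : ‖∫ p in Icc (0 : P2) 1, ‖F p * (a n * ch n p)‖‖ ≤ (C * ‖a n‖) *
        (volume (Icc (0 : P2) 1)).toReal := by
      refine norm_setIntegral_le_of_norm_le_const (by rw [volume_unit]; simp) (fun p hp => ?_)
      rw [norm_norm, norm_mul, norm_mul, norm_ch, mul_one]
      exact mul_le_mul_of_nonneg_right (hC p hp) (norm_nonneg _)
    rw [volume_unit, ENNReal.toReal_one, mul_one] at h5
    exact (le_abs_self _).trans h5
  have h6 := hasSum_integral_of_summable_integral_norm h3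
    (Summable.of_nonneg_of_le (fun n => integral_nonneg fun p => norm_nonneg _) h4 (ha.mul_left C))
  rw [h1]
  show ∫ p in Icc (0 : P2) 1, (∑' n, F p * (a n * ch n p)) = _
  rw [← h6.tsum_eq]
  refine tsum_congr fun n => ?_
  rw [← mean_const_mul]
  show mean _ = mean _
  congr 1
  funext p
  ring

theorem co_evC {a : Z2 → ℂ} (ha : Summable fun n => ‖a n‖) (n : Z2) : co n (evC a) = a n := by
  rw [co, mean_evC_mul ha (cont_ch (-n))]
  have h1 : ∀ m, mean (fun p => ch (-n) p * ch m p) = if n = m then 1 else 0 := co_ch n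
  simp only [h1]
  rw [tsum_eq_single n]
  · simp
  · intro m hm
    rw [if_neg (Ne.symm hm), mul_zero]

theorem pow_norm_co_le (v : P2) (N : ℕ) : ∀ {f : P2 → ℂ}, SP f → ∃ C, ∀ n, ‖la v n‖ ^ N * ‖co n f‖ ≤ C := by
  induction N with
  | zero =>
    intro f hf
    obtain ⟨C, -, hC⟩ := hf.bdd
    exact ⟨C, fun n => by rw [pow_zero, one_mul]; exact norm_co_le n hC⟩
  | succ N ih =>
    intro f hf
    obtain ⟨C, hC⟩ := ih (hf.dv v)
    refine ⟨C, fun n => ?_⟩
    have := hC n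
    rw [co_dv n v hf, norm_mul] at this
    calc ‖la v n‖ ^ (N + 1) * ‖co n f‖ = ‖la v n‖ ^ N * (‖la v n‖ * ‖co n f‖) := by ring
      _ ≤ C := this

theorem wt_pow_le (n : Z2) (N : ℕ) :
    wt n ^ N ≤ 3 ^ N * (1 + ‖la (1, 0) n‖ ^ N + ‖la (0, 1) n‖ ^ N) := by
  have h1 : |(n.1 : ℝ)| ≤ ‖la (1, 0) n‖ := by
    rw [la_one, norm_mul, Complex.norm_intCast]
    have : (1 : ℝ) ≤ ‖(2 * Real.pi * Complex.I : ℂ)‖ := by
      rw [norm_mul, norm_mul, Complex.norm_I, Complex.norm_real, Complex.norm_ofNat, mul_one,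
        Real.norm_eq_abs, abs_of_pos Real.pi_pos]
      linarith [Real.pi_gt_three]
    nlinarith [abs_nonneg (n.1 : ℝ)]
  have h2 : |(n.2 : ℝ)| ≤ ‖la (0, 1) n‖ := by
    rw [la_two, norm_mul, Complex.norm_intCast]
    have : (1 : ℝ) ≤ ‖(2 * Real.pi * Complex.I : ℂ)‖ := by
      rw [norm_mul, norm_mul, Complex.norm_I, Complex.norm_real, Complex.norm_ofNat, mul_one,
        Real.norm_eq_abs, abs_of_pos Real.pi_pos]
      linarith [Real.pi_gt_three]
    nlinarith [abs_nonneg (n.2 : ℝ)]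
  set m := max 1 (max ‖la (1, 0) n‖ ‖la (0, 1) n‖) with hm
  have hm1 : 1 ≤ m := le_max_left _ _
  have hm2 : ‖la (1, 0) n‖ ≤ m := (le_max_left _ _).trans (le_max_right _ _)
  have hm3 : ‖la (0, 1) n‖ ≤ m := (le_max_right _ _).trans (le_max_right _ _)
  have h3 : wt n ≤ 3 * m := by unfold wt; linarith
  have h4 : m ^ N ≤ 1 + ‖la (1, 0) n‖ ^ N + ‖la (0, 1) n‖ ^ N := by
    have a1 : 0 ≤ ‖la (1, 0) n‖ ^ N := by positivity
    have a2 : 0 ≤ ‖la (0, 1) n‖ ^ N := by positivity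
    rcases max_choice 1 (max ‖la (1, 0) n‖ ‖la (0, 1) n‖) with h | h
    · rw [hm, h, one_pow]; linarith
    · rcases max_choice ‖la (1, 0) n‖ ‖la (0, 1) n‖ with h' | h'
      · rw [hm, h, h']; linarith
      · rw [hm, h, h']; linarith
  calc wt n ^ N ≤ (3 * m) ^ N := pow_le_pow_left₀ (wt_pos n).le h3 N
    _ = 3 ^ N * m ^ N := mul_pow _ _ _
    _ ≤ _ := mul_le_mul_of_nonneg_left h4 (by positivity)

theorem rap_of_la_bound {a : Z2 → ℂ} (h0 : ∃ C, ∀ n, ‖a n‖ ≤ C)
    (h1 : ∀ N : ℕ, ∃ C, ∀ n, ‖la (1, 0) n‖ ^ N * ‖a n‖ ≤ C)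
    (h2 : ∀ N : ℕ, ∃ C, ∀ n, ‖la (0, 1) n‖ ^ N * ‖a n‖ ≤ C) (N : ℕ) :
    ∃ C, ∀ n, ‖a n‖ * wt n ^ N ≤ C := by
  obtain ⟨C0, hC0⟩ := h0
  obtain ⟨C1, hC1⟩ := h1 N
  obtain ⟨C2, hC2⟩ := h2 N
  refine ⟨3 ^ N * (C0 + C1 + C2), fun n => ?_⟩
  calc ‖a n‖ * wt n ^ N ≤ ‖a n‖ * (3 ^ N * (1 + ‖la (1, 0) n‖ ^ N + ‖la (0, 1) n‖ ^ N)) :=
        mul_le_mul_of_nonneg_left (wt_pow_le n N) (norm_nonneg _)
    _ = 3 ^ N * (‖a n‖ + ‖la (1, 0) n‖ ^ N * ‖a n‖ + ‖la (0, 1) n‖ ^ N * ‖a n‖) := by ring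
    _ ≤ 3 ^ N * (C0 + C1 + C2) := by
        refine mul_le_mul_of_nonneg_left ?_ (by positivity)
        linarith [hC0 n, hC1 n, hC2 n]

theorem rap_co {f : P2 → ℂ} (hf : SP f) : Rap fun n => co n f := by
  refine rap_of_bound (rap_of_la_bound ?_ (fun N => pow_norm_co_le _ N hf)
    (fun N => pow_norm_co_le _ N hf))
  obtain ⟨C, -, hC⟩ := hf.bdd
  exact ⟨C, fun n => norm_co_le n hC⟩

/-- smooth periodic functions are the sum of their Fourier series -/
theorem evC_co {f : P2 → ℂ} (hf : SP f) : evC (fun n => co n f) = f := by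
  funext p
  have h1 := eq_zero_of_co ((SP_evC (rap_co hf)).sub hf).cont ((SP_evC (rap_co hf)).sub hf).per
    (fun n => by
      rw [co_sub n (SP_evC (rap_co hf)).cont hf.cont, co_evC (rap_co hf).summable, sub_self]) p
  exact sub_eq_zero.1 h1

end Vale.Agent.P247.H137
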