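import Vale.Agent.P247.H137.Fou2

/-!
# P247, U-BEL: Galerkin approximations for the Beltrami equation on the torus
-/

open scoped ContDiff Topology ComplexConjugate
open Set MeasureTheory Filter Metric

noncomputable section

namespace Vale.Agent.P247.H137

open Vale.Agent.P247.H74

/-! ## trigonometric polynomials -/

/-- trigonometric polynomial -/
def tp (B : Finset Z2) (x : Z2 → ℂ) (p : P2) : ℂ := ∑ n ∈ B, x n * ch n p

theorem SP_tp (B : Finset Z2) (x : Z2 → ℂ) : SP (tp B x) :=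
  SP.sum fun n _ => (SP.const (x n)).mul (SP_ch n)

theorem dv_tp (v : P2) (B : Finset Z2) (x : Z2 → ℂ) :
    dv v (tp B x) = tp B fun n => la v n * x n := by
  have h1 : dv v (tp B x) = fun p => ∑ n ∈ B, dv v (fun p => x n * ch n p) p :=
    dv_sum v fun n _ => (SP.const (x n)).mul (SP_ch n)
  rw [h1]
  funext p
  refine Finset.sum_congr rfl fun n _ => ?_
  rw [dv_const_mul v (SP_ch n), dv_ch]
  ring

theorem co_sum_mul (n : Z2) (B : Finset Z2) (x : Z2 → ℂ) {F : P2 → ℂ} (hF : Continuous F) :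
    co n (fun p => F p * tp B x p) = ∑ m ∈ B, x m * co n (fun p => F p * ch m p) := by
  have h1 : (fun p => ch (-n) p * (F p * tp B x p)) =
      fun p => ∑ m ∈ B, x m * (ch (-n) p * (F p * ch m p)) := by
    funext p
    simp only [tp, Finset.mul_sum]
    exact Finset.sum_congr rfl fun m _ => by ring
  rw [co, h1, mean_sum]
  · refine Finset.sum_congr rfl fun m _ => ?_
    rw [mean_const_mul]
    rfl
  · intro m _
    exact continuous_const.mul ((cont_ch _).mul (hF.mul (cont_ch m)))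

theorem co_tp (n : Z2) (B : Finset Z2) (x : Z2 → ℂ) :
    co n (tp B x) = if n ∈ B then x n else 0 := by
  have h1 := co_sum_mul n B x (F := fun _ => 1) continuous_const
  simp only [one_mul] at h1
  have h2 : co n (tp B x) = co n (fun p => tp B x p) := rfl
  have h3 : ∀ m, co n (fun p => ch m p) = if n = m then 1 else 0 := co_ch n
  rw [h2, h1]
  simp only [h3, mul_ite, mul_one, mul_zero]
  rw [Finset.sum_ite_eq]

theorem conj_tp (B : Finset Z2) (x : Z2 → ℂ) (p : P2) :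
    conj (tp B x p) = ∑ n ∈ B, conj (x n) * ch (-n) p := by
  simp only [tp, map_sum, map_mul, ch_conj]

theorem mean_conj_tp_mul (B : Finset Z2) (x : Z2 → ℂ) {F : P2 → ℂ} (hF : Continuous F) :
    mean (fun p => conj (tp B x p) * F p) = ∑ n ∈ B, conj (x n) * co n F := by
  have h1 : (fun p => conj (tp B x p) * F p) =
      fun p => ∑ n ∈ B, conj (x n) * (ch (-n) p * F p) := by
    funext p
    rw [conj_tp, Finset.sum_mul]
    exact Finset.sum_congr rfl fun m _ => by ring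
  rw [h1, mean_sum]
  · refine Finset.sum_congr rfl fun m _ => ?_
    rw [mean_const_mul]
    rfl
  · intro m _
    exact continuous_const.mul ((cont_ch _).mul hF)

theorem mean_normSq_tp (B : Finset Z2) (x : Z2 → ℂ) :
    mean (fun p => ‖tp B x p‖ ^ 2) = ∑ n ∈ B, ‖x n‖ ^ 2 := by
  have h1 := mean_conj_tp_mul B x (SP_tp B x).cont
  have h2 : (fun p => conj (tp B x p) * tp B x p) = fun p => (((‖tp B x p‖ ^ 2 : ℝ)) : ℂ) := by
    funext p
    rw [Complex.conj_mul']
    push_cast; rfl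
  rw [h2, mean_ofReal] at h1
  have h3 : ∑ n ∈ B, conj (x n) * co n (tp B x) = ((∑ n ∈ B, ‖x n‖ ^ 2 : ℝ) : ℂ) := by
    push_cast
    refine Finset.sum_congr rfl fun n hn => ?_
    rw [co_tp, if_pos hn, Complex.conj_mul']
  rw [h3] at h1
  exact_mod_cast h1

theorem mean_re {F : P2 → ℂ} (hF : Continuous F) : mean (fun p => (F p).re) = (mean F).re := by
  have := integral_re (μ := volume.restrict (Icc (0 : P2) 1)) (𝕜 := ℂ) (f := F)
    (integrable_of_cont hF)
  exact this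

/-- Bessel's inequality -/
theorem bessel (B : Finset Z2) {F : P2 → ℂ} (hF : Continuous F) :
    ∑ n ∈ B, ‖co n F‖ ^ 2 ≤ mean (fun p => ‖F p‖ ^ 2) := by
  set t := tp B (fun n => co n F) with ht
  have htc : Continuous t := (SP_tp B _).cont
  have hr : Continuous fun p => F p - t p := hF.sub htc
  have h1 : mean (fun p => conj (t p) * (F p - t p)) = 0 := by
    rw [ht, mean_conj_tp_mul B _ hr]
    refine Finset.sum_eq_zero fun n hn => ?_
    rw [co_sub n hF htc, ht, co_tp, if_pos hn, sub_self, mul_zero]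
  have h2 : (fun p => ‖F p‖ ^ 2) = fun p => (‖t p‖ ^ 2 + ‖F p - t p‖ ^ 2) +
      2 * (conj (t p) * (F p - t p)).re := by
    funext p
    have h3 : F p = t p + (F p - t p) := by ring
    have h4 : ∀ a b : ℂ, ‖a + b‖ ^ 2 = (‖a‖ ^ 2 + ‖b‖ ^ 2) + 2 * (conj a * b).re := by
      intro a b
      rw [← Complex.normSq_eq_norm_sq, ← Complex.normSq_eq_norm_sq, ← Complex.normSq_eq_norm_sq,
        Complex.normSq_apply, Complex.normSq_apply, Complex.normSq_apply]
      simp only [Complex.add_re, Complex.add_im, Complex.mul_re, Complex.conj_re, Complex.conj_im]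
      ring
    conv_lhs => rw [h3]
    exact h4 _ _
  have hcc : Continuous fun p => conj (t p) * (F p - t p) :=
    (Complex.continuous_conj.comp htc).mul hr
  have h5 : mean (fun p => 2 * (conj (t p) * (F p - t p)).re) = 0 := by
    have h6 : mean (fun p => (conj (t p) * (F p - t p)).re) = 0 := by
      rw [mean_re hcc, h1, Complex.zero_re]
    have h7 : mean (fun p => 2 * (conj (t p) * (F p - t p)).re) =
        2 * mean (fun p => (conj (t p) * (F p - t p)).re) := integral_const_mul _ _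
    rw [h7, h6, mul_zero]
  have c1 : Continuous fun p => ‖t p‖ ^ 2 := htc.norm.pow 2
  have c2 : Continuous fun p => ‖F p - t p‖ ^ 2 := hr.norm.pow 2
  have c3 : Continuous fun p => 2 * (conj (t p) * (F p - t p)).re :=
    continuous_const.mul (Complex.continuous_re.comp hcc)
  have c4 : Continuous fun p => ‖t p‖ ^ 2 + ‖F p - t p‖ ^ 2 := c1.add c2
  rw [h2, mean_add c4 c3, mean_add c1 c2, h5, add_zero, ht, mean_normSq_tp]
  have h8 : 0 ≤ mean fun p => ‖F p - t p‖ ^ 2 := mean_nonneg fun p => by positivity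
  linarith

/-! ## the symbol -/

/-- the symbol of `∂ / ∂̄` -/
def Sy (n : Z2) : ℂ := ((n.1 : ℂ) - Complex.I * n.2) / ((n.1 : ℂ) + Complex.I * n.2)

theorem den_ne {n : Z2} (hn : n ≠ 0) : (n.1 : ℂ) + Complex.I * n.2 ≠ 0 := by
  intro h
  have h1 := congrArg Complex.re h
  have h2 := congrArg Complex.im h
  simp at h1 h2
  exact hn (Prod.ext h1 h2)

theorem norm_Sy {n : Z2} (hn : n ≠ 0) : ‖Sy n‖ = 1 := by
  have h1 : (n.1 : ℂ) - Complex.I * n.2 = conj ((n.1 : ℂ) + Complex.I * n.2) := by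
    simp [Complex.conj_I, sub_eq_add_neg]
  rw [Sy, norm_div, h1, Complex.norm_conj]
  exact div_self (norm_ne_zero_iff.2 (den_ne hn))

theorem norm_Sy_le (n : Z2) : ‖Sy n‖ ≤ 1 := by
  by_cases hn : n = 0
  · subst hn
    simp [Sy]
  · exact (norm_Sy hn).le

/-! ## the a priori bound -/

/-- the Galerkin equation -/
def Sol (μ : P2 → ℂ) (B : Finset Z2) (x : Z2 → ℂ) (G : P2 → ℂ) : Prop :=
  ∀ n ∈ B, x n = co n (fun p => μ p * tp B (fun n => Sy n * x n) p + G p)

theorem norm_sq_add_le {ε : ℝ} (hε : 0 < ε) (a b : ℂ) :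
    ‖a + b‖ ^ 2 ≤ (1 + ε) * ‖a‖ ^ 2 + (1 + 1 / ε) * ‖b‖ ^ 2 := by
  have h1 : ‖a + b‖ ^ 2 ≤ (‖a‖ + ‖b‖) ^ 2 := pow_le_pow_left₀ (norm_nonneg _) (norm_add_le _ _) 2
  have h2 : 0 ≤ (ε * ‖a‖ - ‖b‖) ^ 2 / ε := by positivity
  have h3 : (ε * ‖a‖ - ‖b‖) ^ 2 / ε = ε * ‖a‖ ^ 2 - 2 * ‖a‖ * ‖b‖ + 1 / ε * ‖b‖ ^ 2 := by
    field_simp
    ring
  nlinarith [h1, h2, h3]

theorem apriori {k : ℝ} (hk0 : 0 ≤ k) (hk : k < 1) : ∃ C, 0 ≤ C ∧ ∀ (μ : P2 → ℂ), Continuous μ →
    (∀ p, ‖μ p‖ ≤ k) → ∀ (B : Finset Z2) (x : Z2 → ℂ) (G : P2 → ℂ), Continuous G →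
    Sol μ B x G → ∑ n ∈ B, ‖x n‖ ^ 2 ≤ C * mean (fun p => ‖G p‖ ^ 2) := by
  set ε : ℝ := (1 - k ^ 2) / 2 with hε
  have hk2 : k ^ 2 < 1 := by nlinarith
  have hε0 : 0 < ε := by rw [hε]; linarith
  refine ⟨(1 + 1 / ε) / ε, by positivity, fun μ hμ hμk B x G hG hx => ?_⟩
  set v := tp B (fun n => Sy n * x n) with hv
  have hvc : Continuous v := (SP_tp B _).cont
  have h1 : ∑ n ∈ B, ‖x n‖ ^ 2 ≤ mean (fun p => ‖μ p * v p + G p‖ ^ 2) := by
    refine le_trans (le_of_eq ?_) (bessel B ((hμ.mul hvc).add hG))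
    refine Finset.sum_congr rfl fun n hn => ?_
    conv_lhs => rw [hx n hn]
  have h2 : mean (fun p => ‖μ p * v p + G p‖ ^ 2) ≤
      mean (fun p => (1 - ε) * ‖v p‖ ^ 2 + (1 + 1 / ε) * ‖G p‖ ^ 2) := by
    refine mean_mono (((hμ.mul hvc).add hG).norm.pow 2)
      ((continuous_const.mul (hvc.norm.pow 2)).add (continuous_const.mul (hG.norm.pow 2)))
      fun p => ?_
    refine (norm_sq_add_le hε0 _ _).trans ?_
    rw [norm_mul, mul_pow, ← mul_assoc]
    have h3 : ‖μ p‖ ^ 2 ≤ k ^ 2 := pow_le_pow_left₀ (norm_nonneg _) (hμk p) 2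
    have h4 : (1 + ε) * ‖μ p‖ ^ 2 ≤ 1 - ε := by nlinarith
    have h5 : (1 + ε) * ‖μ p‖ ^ 2 * ‖v p‖ ^ 2 ≤ (1 - ε) * ‖v p‖ ^ 2 :=
      mul_le_mul_of_nonneg_right h4 (by positivity)
    linarith
  have h6 : mean (fun p => (1 - ε) * ‖v p‖ ^ 2 + (1 + 1 / ε) * ‖G p‖ ^ 2) =
      (1 - ε) * (∑ n ∈ B, ‖Sy n * x n‖ ^ 2) + (1 + 1 / ε) * mean (fun p => ‖G p‖ ^ 2) := by
    have c1 : Continuous fun p => (1 - ε) * ‖v p‖ ^ 2 := continuous_const.mul (hvc.norm.pow 2)
    have c2 : Continuous fun p => (1 + 1 / ε) * ‖G p‖ ^ 2 := continuous_const.mul (hG.norm.pow 2)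
    rw [mean_add c1 c2]
    have e1 : mean (fun p => (1 - ε) * ‖v p‖ ^ 2) = (1 - ε) * mean (fun p => ‖v p‖ ^ 2) :=
      integral_const_mul _ _
    have e2 : mean (fun p => (1 + 1 / ε) * ‖G p‖ ^ 2) = (1 + 1 / ε) * mean (fun p => ‖G p‖ ^ 2) :=
      integral_const_mul _ _
    rw [e1, e2, hv, mean_normSq_tp]
  have h7 : ∑ n ∈ B, ‖Sy n * x n‖ ^ 2 ≤ ∑ n ∈ B, ‖x n‖ ^ 2 := by
    refine Finset.sum_le_sum fun n _ => ?_
    rw [norm_mul, mul_pow]
    have : ‖Sy n‖ ^ 2 ≤ 1 := pow_le_one₀ (norm_nonneg _) (norm_Sy_le n)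
    nlinarith [sq_nonneg ‖x n‖]
  have hε1 : 0 ≤ 1 - ε := by rw [hε]; nlinarith [sq_nonneg k]
  have h8 : ∑ n ∈ B, ‖x n‖ ^ 2 ≤ (1 - ε) * (∑ n ∈ B, ‖x n‖ ^ 2) +
      (1 + 1 / ε) * mean (fun p => ‖G p‖ ^ 2) := by
    refine (h1.trans h2).trans ?_
    rw [h6]
    have := mul_le_mul_of_nonneg_left h7 hε1
    linarith
  have h9 : ε * ∑ n ∈ B, ‖x n‖ ^ 2 ≤ (1 + 1 / ε) * mean (fun p => ‖G p‖ ^ 2) := by linarith
  rw [div_mul_eq_mul_div, le_div_iff₀ hε0]
  linarith

/-- solvability of the Galerkin equation -/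
theorem exists_sol {k : ℝ} (hk0 : 0 ≤ k) (hk : k < 1) {μ g : P2 → ℂ} (hμ : Continuous μ)
    (hμk : ∀ p, ‖μ p‖ ≤ k) (hg : Continuous g) (B : Finset Z2) :
    ∃ x : Z2 → ℂ, (∀ n, n ∉ B → x n = 0) ∧ Sol μ B x g := by
  classical
  obtain ⟨C, -, hC⟩ := apriori hk0 hk
  let T : (B → ℂ) →ₗ[ℂ] (B → ℂ) :=
    { toFun := fun y n => y n - ∑ m : B, (Sy m * co n (fun p => μ p * ch m p)) * y m
      map_add' := by
        intro y z
        funext n
        simp only [Pi.add_apply, mul_add, Finset.sum_add_distrib]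
        ring
      map_smul' := by
        intro c y
        funext n
        simp only [Pi.smul_apply, smul_eq_mul, RingHom.id_apply, mul_sub, Finset.mul_sum]
        congr 1
        exact Finset.sum_congr rfl fun m _ => by ring }
  let ex : (B → ℂ) → Z2 → ℂ := fun y n => if h : n ∈ B then y ⟨n, h⟩ else 0
  have hex : ∀ y (n : B), ex y n = y n := by
    intro y n
    simp only [ex, n.2, dif_pos]
  have hT : ∀ y (n : B), T y n = ex y n -
      co n (fun p => μ p * tp B (fun n => Sy n * ex y n) p) := by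
    intro y n
    rw [co_sum_mul _ _ _ hμ, hex]
    show y n - _ = y n - _
    congr 1
    rw [← Finset.sum_coe_sort B]
    refine Finset.sum_congr rfl fun m _ => ?_
    rw [hex]
    ring
  have hinj : Function.Injective T := by
    rw [injective_iff_map_eq_zero]
    intro y hy
    have h1 : Sol μ B (ex y) (fun _ => 0) := by
      intro n hn
      have h2 := congrFun hy ⟨n, hn⟩
      rw [hT y ⟨n, hn⟩] at h2
      simp only [add_zero]
      exact sub_eq_zero.1 h2
    have h3 := hC μ hμ hμk B (ex y) (fun _ => 0) continuous_const h1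
    simp only [norm_zero, ne_eq, OfNat.ofNat_ne_zero, not_false_eq_true, zero_pow, mean_const,
      mul_zero] at h3
    have h4 : ∀ n ∈ B, ‖ex y n‖ ^ 2 = 0 := by
      have h5 : ∑ n ∈ B, ‖ex y n‖ ^ 2 = 0 :=
        le_antisymm h3 (Finset.sum_nonneg fun n _ => by positivity)
      exact (Finset.sum_eq_zero_iff_of_nonneg fun n _ => by positivity).1 h5
    funext n
    have h6 := h4 n n.2
    rw [hex] at h6
    simpa using h6
  have hsurj : Function.Surjective T := LinearMap.injective_iff_surjective.1 hinj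
  obtain ⟨y, hy⟩ := hsurj fun n : B => co n g
  refine ⟨ex y, fun n hn => by simp only [ex, hn, dif_neg, not_false_eq_true], fun n hn => ?_⟩
  have h7 := congrFun hy ⟨n, hn⟩
  rw [hT y ⟨n, hn⟩] at h7
  simp only at h7
  have c1 : Continuous fun p => μ p * tp B (fun n => Sy n * ex y n) p :=
    hμ.mul (SP_tp B _).cont
  rw [co_add n c1 hg, ← h7]
  ring

/-! ## families bounded with derivatives -/

/-- bounded in `L²` -/
def B0 {ι : Type} (F : ι → P2 → ℂ) : Prop := ∃ C, ∀ i, mean (fun p => ‖F i p‖ ^ 2) ≤ C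

/-- all derivatives in direction `v` up to order `N` are bounded in `L²` -/
def BD (v : P2) {ι : Type} : ℕ → (ι → P2 → ℂ) → Prop
  | 0, F => B0 F
  | N + 1, F => B0 F ∧ BD v N (fun i => dv v (F i))

theorem BD.zero {v : P2} {ι : Type} {N : ℕ} {F : ι → P2 → ℂ} (h : BD v N F) : B0 F := by
  cases N with
  | zero => exact h
  | succ N => exact h.1

theorem BD.mono {v : P2} {ι : Type} (N : ℕ) : ∀ {F : ι → P2 → ℂ}, BD v (N + 1) F → BD v N F := by
  induction N with
  | zero => intro F h; exact h.1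
  | succ N ih => intro F h; exact ⟨h.1, ih h.2⟩

theorem B0.add {ι : Type} {F G : ι → P2 → ℂ} (hFc : ∀ i, SP (F i)) (hGc : ∀ i, SP (G i))
    (hF : B0 F) (hG : B0 G) : B0 fun i p => F i p + G i p := by
  obtain ⟨C, hC⟩ := hF
  obtain ⟨D, hD⟩ := hG
  refine ⟨2 * C + 2 * D, fun i => ?_⟩
  have c1 : Continuous fun p => 2 * ‖F i p‖ ^ 2 := continuous_const.mul ((hFc i).cont.norm.pow 2)
  have c2 : Continuous fun p => 2 * ‖G i p‖ ^ 2 := continuous_const.mul ((hGc i).cont.norm.pow 2)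
  have h1 : mean (fun p => ‖F i p + G i p‖ ^ 2) ≤ mean (fun p => 2 * ‖F i p‖ ^ 2 + 2 * ‖G i p‖ ^ 2) := by
    refine mean_mono (((hFc i).cont.add (hGc i).cont).norm.pow 2) (c1.add c2) fun p => ?_
    have := norm_sq_add_le one_pos (F i p) (G i p)
    norm_num at this
    linarith
  refine h1.trans ?_
  rw [mean_add c1 c2]
  have e1 : mean (fun p => 2 * ‖F i p‖ ^ 2) = 2 * mean (fun p => ‖F i p‖ ^ 2) :=
    integral_const_mul _ _
  have e2 : mean (fun p => 2 * ‖G i p‖ ^ 2) = 2 * mean (fun p => ‖G i p‖ ^ 2) :=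
    integral_const_mul _ _
  rw [e1, e2]
  linarith [hC i, hD i]

theorem B0.mul {ι : Type} {a : P2 → ℂ} (ha : SP a) {F : ι → P2 → ℂ} (hFc : ∀ i, SP (F i))
    (hF : B0 F) : B0 fun i p => a p * F i p := by
  obtain ⟨C, hC⟩ := hF
  obtain ⟨A, hA0, hA⟩ := ha.bdd
  refine ⟨A ^ 2 * C, fun i => ?_⟩
  have c1 : Continuous fun p => A ^ 2 * ‖F i p‖ ^ 2 :=
    continuous_const.mul ((hFc i).cont.norm.pow 2)
  have h1 : mean (fun p => ‖a p * F i p‖ ^ 2) ≤ mean (fun p => A ^ 2 * ‖F i p‖ ^ 2) := by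
    refine mean_mono ((ha.cont.mul (hFc i).cont).norm.pow 2) c1 fun p => ?_
    rw [norm_mul, mul_pow]
    exact mul_le_mul_of_nonneg_right (pow_le_pow_left₀ (norm_nonneg _) (hA p) 2) (by positivity)
  refine h1.trans ?_
  have e1 : mean (fun p => A ^ 2 * ‖F i p‖ ^ 2) = A ^ 2 * mean (fun p => ‖F i p‖ ^ 2) :=
    integral_const_mul _ _
  rw [e1]
  exact mul_le_mul_of_nonneg_left (hC i) (by positivity)

theorem BD.add {v : P2} {ι : Type} (N : ℕ) : ∀ {F G : ι → P2 → ℂ}, (∀ i, SP (F i)) →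
    (∀ i, SP (G i)) → BD v N F → BD v N G → BD v N fun i p => F i p + G i p := by
  induction N with
  | zero => intro F G hFc hGc hF hG; exact B0.add hFc hGc hF hG
  | succ N ih =>
    intro F G hFc hGc hF hG
    refine ⟨B0.add hFc hGc hF.1 hG.1, ?_⟩
    have h1 := ih (fun i => (hFc i).dv v) (fun i => (hGc i).dv v) hF.2 hG.2
    have h2 : (fun i => dv v fun p => F i p + G i p) =
        fun i p => dv v (F i) p + dv v (G i) p := by
      funext i
      exact dv_add v (hFc i) (hGc i)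
    rw [h2]
    exact h1

theorem BD.mul {v : P2} {ι : Type} (N : ℕ) : ∀ {a : P2 → ℂ} {F : ι → P2 → ℂ}, SP a →
    (∀ i, SP (F i)) → BD v N F → BD v N fun i p => a p * F i p := by
  induction N with
  | zero => intro a F ha hFc hF; exact B0.mul ha hFc hF
  | succ N ih =>
    intro a F ha hFc hF
    refine ⟨B0.mul ha hFc hF.1, ?_⟩
    have h1 := ih (ha.dv v) hFc hF.mono
    have h2 := ih ha (fun i => (hFc i).dv v) hF.2
    have h3 : (fun i => dv v fun p => a p * F i p) =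
        fun i p => dv v a p * F i p + a p * dv v (F i) p := by
      funext i
      exact dv_mul v ha (hFc i)
    rw [h3]
    exact BD.add N (fun i => (ha.dv v).mul (hFc i)) (fun i => ha.mul ((hFc i).dv v)) h1 h2

theorem BD.const {v : P2} {ι : Type} (N : ℕ) : ∀ {g : P2 → ℂ}, SP g →
    BD v N fun (_ : ι) => g := by
  induction N with
  | zero => intro g hg; exact ⟨_, fun _ => le_refl _⟩
  | succ N ih => intro g hg; exact ⟨⟨_, fun _ => le_refl _⟩, ih (hg.dv v)⟩

/-- derivatives of solutions -/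
theorem Sol.dv {μ : P2 → ℂ} (hμ : SP μ) {B : Finset Z2} {x : Z2 → ℂ} {G : P2 → ℂ} (hG : SP G)
    (h : Sol μ B x G) (v : P2) : Sol μ B (fun n => la v n * x n)
      (fun p => dv v μ p * tp B (fun n => Sy n * x n) p + dv v G p) := by
  intro n hn
  simp only
  have hw := SP_tp B (fun n => Sy n * x n)
  conv_lhs => rw [h n hn]
  rw [← co_dv n v ((hμ.mul hw).add hG), dv_add v (hμ.mul hw) hG, dv_mul v hμ hw, dv_tp]
  congr 1
  funext p
  have e1 : (fun n => la v n * (Sy n * x n)) = fun n => Sy n * (la v n * x n) := by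
    funext n; ring
  rw [e1]
  ring

theorem BD_sol {k : ℝ} (hk0 : 0 ≤ k) (hk : k < 1) {μ : P2 → ℂ} (hμ : SP μ)
    (hμk : ∀ p, ‖μ p‖ ≤ k) (v : P2) {ι : Type} (B : ι → Finset Z2) (N : ℕ) :
    ∀ (x : ι → Z2 → ℂ) (G : ι → P2 → ℂ), (∀ i, SP (G i)) → (∀ i, Sol μ (B i) (x i) (G i)) →
      BD v N G → BD v N (fun i => tp (B i) (fun n => Sy n * x i n)) := by
  obtain ⟨C, hC0, hC⟩ := apriori hk0 hk
  have key : ∀ (x : ι → Z2 → ℂ) (G : ι → P2 → ℂ), (∀ i, SP (G i)) →
      (∀ i, Sol μ (B i) (x i) (G i)) → B0 G → B0 (fun i => tp (B i) (fun n => Sy n * x i n)) := by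
    intro x G hG hx h0
    obtain ⟨D, hD⟩ := h0
    refine ⟨C * D, fun i => ?_⟩
    rw [mean_normSq_tp]
    have h1 := hC μ hμ.cont hμk (B i) (x i) (G i) (hG i).cont (hx i)
    have h2 : ∑ n ∈ B i, ‖Sy n * x i n‖ ^ 2 ≤ ∑ n ∈ B i, ‖x i n‖ ^ 2 := by
      refine Finset.sum_le_sum fun n _ => ?_
      rw [norm_mul, mul_pow]
      have : ‖Sy n‖ ^ 2 ≤ 1 := pow_le_one₀ (norm_nonneg _) (norm_Sy_le n)
      nlinarith [sq_nonneg ‖x i n‖]
    exact (h2.trans h1).trans (mul_le_mul_of_nonneg_left (hD i) hC0)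
  induction N with
  | zero => exact key
  | succ N ih =>
    intro x G hG hx h
    refine ⟨key x G hG hx h.1, ?_⟩
    have h1 : BD v N (fun i => tp (B i) (fun n => Sy n * x i n)) := ih x G hG hx h.mono
    have h2 := ih (fun i n => la v n * x i n)
      (fun i p => dv v μ p * tp (B i) (fun n => Sy n * x i n) p + dv v (G i) p)
      (fun i => ((hμ.dv v).mul (SP_tp _ _)).add ((hG i).dv v))
      (fun i => (hx i).dv hμ (hG i) v)
      (BD.add N (fun i => (hμ.dv v).mul (SP_tp _ _)) (fun i => (hG i).dv v)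
        (BD.mul N (hμ.dv v) (fun i => SP_tp _ _) h1) h.2)
    have h3 : (fun i => dv v (tp (B i) (fun n => Sy n * x i n))) =
        fun i => tp (B i) (fun n => Sy n * (la v n * x i n)) := by
      funext i
      rw [dv_tp]
      congr 1
      funext n
      ring
    rw [h3]
    exact h2

theorem bound_of_BD (v : P2) {ι : Type} (B : ι → Finset Z2) (N : ℕ) :
    ∀ (x : ι → Z2 → ℂ), BD v N (fun i => tp (B i) (fun n => Sy n * x i n)) →
      ∃ C, ∀ i, ∀ n ∈ B i, n ≠ 0 → ‖la v n‖ ^ N * ‖x i n‖ ≤ C := by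
  induction N with
  | zero =>
    intro x h
    obtain ⟨C, hC⟩ := h
    refine ⟨C + 1, fun i n hn h0 => ?_⟩
    have h1 := hC i
    simp only [mean_normSq_tp] at h1
    have h2 : ‖Sy n * x i n‖ ^ 2 ≤ ∑ n ∈ B i, ‖Sy n * x i n‖ ^ 2 :=
      Finset.single_le_sum (f := fun n => ‖Sy n * x i n‖ ^ 2) (fun m _ => by positivity) hn
    rw [norm_mul, norm_Sy h0, one_mul] at h2
    rw [pow_zero, one_mul]
    nlinarith [sq_nonneg (‖x i n‖ - 1), norm_nonneg (x i n)]
  | succ N ih =>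
    intro x h
    have h3 : (fun i => dv v (tp (B i) (fun n => Sy n * x i n))) =
        fun i => tp (B i) (fun n => Sy n * (la v n * x i n)) := by
      funext i
      rw [dv_tp]
      congr 1
      funext n
      ring
    have h4 := h.2
    rw [h3] at h4
    obtain ⟨C, hC⟩ := ih (fun i n => la v n * x i n) h4
    refine ⟨C, fun i n hn h0 => ?_⟩
    have h5 := hC i n hn h0
    rw [norm_mul] at h5
    calc ‖la v n‖ ^ (N + 1) * ‖x i n‖ = ‖la v n‖ ^ N * (‖la v n‖ * ‖x i n‖) := by ring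
      _ ≤ C := h5

end Vale.Agent.P247.H137
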