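import Vale.Agent.P247.H137.Gal

/-!
# P247, package U-BEL: the Beltrami equation on the torus
-/

open scoped ContDiff Topology ComplexConjugate
open Set MeasureTheory Filter Metric

noncomputable section

namespace Vale.Agent.P247.H137

open Vale.Agent.P247.H74

theorem evC_add {a b : Z2 → ℂ} (ha : Rap a) (hb : Rap b) (p : P2) :
    evC (fun n => a n + b n) p = evC a p + evC b p := by
  simp only [evC, add_mul]
  exact (ha.summable_ch p).tsum_add (hb.summable_ch p)

theorem evC_const_mul (c : ℂ) (a : Z2 → ℂ) (p : P2) :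
    evC (fun n => c * a n) p = c * evC a p := by
  simp only [evC, mul_assoc]
  exact tsum_mul_left

theorem Rap.const_mul {a : Z2 → ℂ} (ha : Rap a) (c : ℂ) : Rap fun n => c * a n :=
  ha.of_le ‖c‖ 0 fun n => by rw [norm_mul, pow_zero, mul_one]

theorem wt_bound {ι : Type} {a : ι → Z2 → ℂ} (h0 : ∃ C, ∀ i n, ‖a i n‖ ≤ C)
    (h1 : ∀ N : ℕ, ∃ C, ∀ i n, ‖la (1, 0) n‖ ^ N * ‖a i n‖ ≤ C)
    (h2 : ∀ N : ℕ, ∃ C, ∀ i n, ‖la (0, 1) n‖ ^ N * ‖a i n‖ ≤ C) (N : ℕ) :
    ∃ C, ∀ i n, ‖a i n‖ * wt n ^ N ≤ C := by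
  obtain ⟨C0, hC0⟩ := h0
  obtain ⟨C1, hC1⟩ := h1 N
  obtain ⟨C2, hC2⟩ := h2 N
  refine ⟨3 ^ N * (C0 + C1 + C2), fun i n => ?_⟩
  calc ‖a i n‖ * wt n ^ N ≤ ‖a i n‖ * (3 ^ N * (1 + ‖la (1, 0) n‖ ^ N + ‖la (0, 1) n‖ ^ N)) :=
        mul_le_mul_of_nonneg_left (wt_pow_le n N) (norm_nonneg _)
    _ = 3 ^ N * (‖a i n‖ + ‖la (1, 0) n‖ ^ N * ‖a i n‖ + ‖la (0, 1) n‖ ^ N * ‖a i n‖) := by ring
    _ ≤ 3 ^ N * (C0 + C1 + C2) := by
        refine mul_le_mul_of_nonneg_left ?_ (by positivity)
        linarith [hC0 i n, hC1 i n, hC2 i n]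

/-- the boxes -/
def box (R : ℕ) : Finset Z2 := (Finset.Icc (-(R : ℤ), -(R : ℤ)) ((R : ℤ), (R : ℤ))).erase 0

theorem ne_of_mem_box {R : ℕ} {n : Z2} (h : n ∈ box R) : n ≠ 0 := (Finset.mem_erase.1 h).1

theorem zero_notMem_box (R : ℕ) : (0 : Z2) ∉ box R := fun h => ne_of_mem_box h rfl

theorem eventually_mem_box {n : Z2} (hn : n ≠ 0) : ∀ᶠ R in atTop, n ∈ box R := by
  filter_upwards [eventually_ge_atTop (n.1.natAbs + n.2.natAbs)] with R hR
  rw [box, Finset.mem_erase, Finset.mem_Icc]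
  refine ⟨hn, ⟨?_, ?_⟩, ⟨?_, ?_⟩⟩ <;> simp only <;> omega

/-- the Beltrami equation, in terms of Fourier series -/
theorem exists_beltrami {μ g : P2 → ℂ} {k : ℝ} (hμ : SP μ) (hg : SP g) (hk : k < 1)
    (hμk : ∀ p, ‖μ p‖ ≤ k) : ∃ (y : Z2 → ℂ) (c : ℂ), Rap y ∧ y 0 = 0 ∧
      ∀ p, evC y p = μ p * evC (fun n => Sy n * y n) p + g p - c := by
  have hk0 : 0 ≤ k := (norm_nonneg _).trans (hμk 0)
  choose x hx0 hxS using fun R => exists_sol hk0 hk hμ.cont hμk hg.cont (box R)
  have hb : ∀ (v : P2) (N : ℕ), ∃ C, ∀ R n, ‖la v n‖ ^ N * ‖x R n‖ ≤ C := by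
    intro v N
    obtain ⟨C, hC⟩ := bound_of_BD v box N x
      (BD_sol hk0 hk hμ hμk v box N x (fun _ => g) (fun _ => hg) hxS (BD.const N hg))
    refine ⟨max C 0, fun R n => ?_⟩
    by_cases hn : n ∈ box R
    · exact (hC R n hn (ne_of_mem_box hn)).trans (le_max_left _ _)
    · rw [hx0 R n hn, norm_zero, mul_zero]
      exact le_max_right _ _
  have hb0 : ∃ C, ∀ R n, ‖x R n‖ ≤ C := by
    obtain ⟨C, hC⟩ := hb 0 0
    refine ⟨C, fun R n => ?_⟩
    have := hC R n
    rwa [pow_zero, one_mul] at this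
  have hw : ∀ N : ℕ, ∃ C, ∀ R n, ‖x R n‖ * wt n ^ N ≤ C :=
    wt_bound hb0 (fun N => hb _ N) (fun N => hb _ N)
  -- the limit
  have hlim : ∀ n, ∃ y, Tendsto (fun R => x R n) (hyperfilter ℕ : Filter ℕ) (𝓝 y) := by
    intro n
    obtain ⟨C, hC⟩ := hb0
    have h1 : closedBall (0 : ℂ) C ∈ (hyperfilter ℕ).map (fun R => x R n) := by
      rw [Ultrafilter.mem_map]
      refine Filter.univ_mem' fun R => ?_
      simpa using hC R n
    obtain ⟨y, -, hy⟩ := (isCompact_closedBall (0 : ℂ) C).ultrafilter_le_nhds' _ h1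
    exact ⟨y, hy⟩
  choose y hy using hlim
  have hyN : ∀ N : ℕ, ∃ C, ∀ n, ‖y n‖ * wt n ^ N ≤ C := by
    intro N
    obtain ⟨C, hC⟩ := hw N
    exact ⟨C, fun n => le_of_tendsto' ((hy n).norm.mul_const _) fun R => hC R n⟩
  have hyR : Rap y := rap_of_bound hyN
  have hy0 : y 0 = 0 := by
    have h1 : (fun R => x R 0) = fun _ => 0 := by
      funext R
      exact hx0 R 0 (zero_notMem_box R)
    have h2 := hy 0
    rw [h1] at h2
    exact tendsto_nhds_unique h2 tendsto_const_nhds
  have hSyR : Rap fun n => Sy n * y n := by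
    refine hyR.of_le 1 0 fun n => ?_
    rw [norm_mul, one_mul, pow_zero, mul_one]
    exact mul_le_of_le_one_left (norm_nonneg _) (norm_Sy_le n)
  have hle : (hyperfilter ℕ : Filter ℕ) ≤ atTop := Nat.hyperfilter_le_atTop
  -- the equation for the coefficients
  have hcoef : ∀ n, n ≠ 0 → y n = co n (fun p => μ p * evC (fun n => Sy n * y n) p) + co n g := by
    intro n hn
    obtain ⟨C4, hC4⟩ := hw 4
    have e1 : ∀ R, co n (fun p => μ p * tp (box R) (fun n => Sy n * x R n) p) =
        ∑' m, (Sy m * x R m) * co n (fun p => μ p * ch m p) := by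
      intro R
      rw [co_sum_mul n _ _ hμ.cont]
      refine (tsum_eq_sum fun m hm => ?_).symm
      rw [hx0 R m hm]
      ring
    have e2 : co n (fun p => μ p * evC (fun n => Sy n * y n) p) =
        ∑' m, (Sy m * y m) * co n (fun p => μ p * ch m p) := by
      have h1 := mean_evC_mul hSyR.summable ((cont_ch (-n)).mul hμ.cont)
      have h2 : (fun p => ch (-n) p * (μ p * evC (fun n => Sy n * y n) p)) =
          fun p => (ch (-n) * μ) p * evC (fun n => Sy n * y n) p := by
        funext p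
        simp only [Pi.mul_apply]
        ring
      rw [co, h2, h1]
      refine tsum_congr fun m => ?_
      congr 1
      rw [co]
      congr 1
      funext p
      simp only [Pi.mul_apply]
      ring
    have e3 : Tendsto (fun R => ∑' m, (Sy m * x R m) * co n (fun p => μ p * ch m p))
        (hyperfilter ℕ : Filter ℕ) (𝓝 (∑' m, (Sy m * y m) * co n (fun p => μ p * ch m p))) := by
      refine tendsto_tsum_of_dominated_convergence (bound := fun m => C4 * (wt m ^ 4)⁻¹ * k)
        ((summable_wt.mul_left C4).mul_right k)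
        (fun m => ((hy m).const_mul _).mul_const _) (Eventually.of_forall fun R m => ?_)
      rw [norm_mul]
      have h1 : ‖Sy m * x R m‖ ≤ C4 * (wt m ^ 4)⁻¹ := by
        have h2 := hC4 R m
        have h3 := wt_pos m
        rw [norm_mul, ← div_eq_mul_inv, le_div_iff₀ (by positivity)]
        refine le_trans ?_ h2
        rw [mul_assoc]
        exact mul_le_of_le_one_left (by positivity) (norm_Sy_le m)
      have h4 : ‖co n (fun p => μ p * ch m p)‖ ≤ k := by
        refine norm_co_le n fun p => ?_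
        rw [norm_mul, norm_ch, mul_one]
        exact hμk p
      exact mul_le_mul h1 h4 (norm_nonneg _) ((norm_nonneg _).trans h1)
    have e4 : Tendsto (fun R => x R n) (hyperfilter ℕ : Filter ℕ)
        (𝓝 (co n (fun p => μ p * evC (fun n => Sy n * y n) p) + co n g)) := by
      rw [e2]
      refine Tendsto.congr' ?_ (e3.add_const (co n g))
      filter_upwards [hle (eventually_mem_box hn)] with R hR
      have h5 := hxS R n hR
      have c1 : Continuous fun p => μ p * tp (box R) (fun n => Sy n * x R n) p :=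
        hμ.cont.mul (SP_tp _ _).cont
      rw [co_add n c1 hg.cont] at h5
      rw [h5, e1 R]
    exact tendsto_nhds_unique (hy n) e4
  -- conclusion
  have hW := SP_evC hyR
  have hV := SP_evC hSyR
  set c0 : ℂ := co 0 (fun p => evC y p - (μ p * evC (fun n => Sy n * y n) p + g p)) with hc0
  have hG : SP fun p => evC y p - (μ p * evC (fun n => Sy n * y n) p + g p) :=
    hW.sub ((hμ.mul hV).add hg)
  have hF : SP fun p => (evC y p - (μ p * evC (fun n => Sy n * y n) p + g p)) - c0 :=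
    hG.sub (SP.const c0)
  refine ⟨y, -c0, hyR, hy0, fun p => ?_⟩
  have h1 := eq_zero_of_co hF.cont hF.per (fun n => ?_) p
  · linear_combination h1
  · rw [co_sub n hG.cont continuous_const, co_const]
    by_cases hn : n = 0
    · subst hn
      rw [if_pos rfl, ← hc0, sub_self]
    · rw [if_neg hn, sub_zero, co_sub n hW.cont ((hμ.mul hV).add hg).cont,
        co_add n (hμ.mul hV).cont hg.cont, co_evC hyR.summable, hcoef n hn, sub_self]

/-- **The Beltrami equation on the torus.** -/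
theorem U1 : U1_statement := by
  intro μ k hμs hμp hk hμk g hgs hgp
  have hμ : SP μ := ⟨hμs, hμp⟩
  have hg : SP g := ⟨hgs, hgp⟩
  obtain ⟨y, c, hyR, hy0, hy⟩ := exists_beltrami hμ hg hk hμk
  set b : Z2 → ℂ := fun n => y n / (2 * Real.pi * Complex.I * ((n.1 : ℂ) + Complex.I * n.2)) with hb
  have hbR : Rap b := by
    refine hyR.of_le 1 0 fun n => ?_
    rw [one_mul, pow_zero, mul_one]
    by_cases hn : n = 0
    · subst hn
      simp [hb, hy0]
    · rw [hb]
      simp only
      rw [norm_div]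
      refine div_le_self (norm_nonneg _) ?_
      have h1 : (1 : ℝ) ≤ ‖(2 * Real.pi * Complex.I : ℂ)‖ := by
        rw [norm_mul, norm_mul, Complex.norm_I, Complex.norm_real, Complex.norm_ofNat, mul_one,
          Real.norm_eq_abs, abs_of_pos Real.pi_pos]
        linarith [Real.pi_gt_three]
      have h2 : (1 : ℝ) ≤ ‖((n.1 : ℂ) + Complex.I * n.2)‖ := by
        have h3 : ‖((n.1 : ℂ) + Complex.I * n.2)‖ ^ 2 = ((n.1 ^ 2 + n.2 ^ 2 : ℤ) : ℝ) := by
          rw [← Complex.normSq_eq_norm_sq, Complex.normSq_apply]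
          simp
          ring
        have h4 : (1 : ℤ) ≤ n.1 ^ 2 + n.2 ^ 2 := by
          by_contra hlt
          have h5 : n.1 ^ 2 + n.2 ^ 2 ≤ 0 := by omega
          have h6 : n.1 = 0 := by nlinarith [sq_nonneg n.1, sq_nonneg n.2]
          have h7 : n.2 = 0 := by nlinarith [sq_nonneg n.1, sq_nonneg n.2]
          exact hn (Prod.ext h6 h7)
        have h8 : (1 : ℝ) ≤ ‖((n.1 : ℂ) + Complex.I * n.2)‖ ^ 2 := by
          rw [h3]; exact_mod_cast h4
        nlinarith [norm_nonneg ((n.1 : ℂ) + Complex.I * n.2)]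
      rw [norm_mul]
      nlinarith
  have hH := SP_evC hbR
  have hds : ∀ p, ds (evC b) p = evC (fun n => la (1, 0) n * b n) p := by
    intro p
    rw [ds_eq, dv_evC _ hbR]
  have hdt : ∀ p, dt (evC b) p = evC (fun n => la (0, 1) n * b n) p := by
    intro p
    rw [dt_eq, dv_evC _ hbR]
  have h1 : ∀ p, ds (evC b) p + Complex.I * dt (evC b) p = evC y p := by
    intro p
    rw [hds, hdt, ← evC_const_mul, ← evC_add (hbR.mul_la _) ((hbR.mul_la _).const_mul _)]
    congr 1
    funext n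
    by_cases hn : n = 0
    · subst hn
      simp [hb, hy0]
    · have h2 := den_ne hn
      have h3 := two_pi_I_ne
      rw [la_one, la_two, hb]
      field_simp
  have h2 : ∀ p, ds (evC b) p - Complex.I * dt (evC b) p = evC (fun n => Sy n * y n) p := by
    intro p
    have e1 : ds (evC b) p - Complex.I * dt (evC b) p =
        ds (evC b) p + (-Complex.I) * dt (evC b) p := by ring
    rw [e1, hds, hdt, ← evC_const_mul, ← evC_add (hbR.mul_la _) ((hbR.mul_la _).const_mul _)]
    congr 1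
    funext n
    by_cases hn : n = 0
    · subst hn
      simp [hb, hy0]
    · have h2 := den_ne hn
      have h3 := two_pi_I_ne
      rw [la_one, la_two, hb, Sy]
      field_simp
      ring
  refine ⟨evC b, c, hH.smooth, hH.per, fun p => ?_⟩
  rw [h1, h2, hy p]

end Vale.Agent.P247.H137
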