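import Vale.Agent.P247.H137.U1

/-!
# P247, package U-UNI: uniformisation of the torus
-/

open scoped ContDiff Topology ComplexConjugate
open Set MeasureTheory Filter Metric

noncomputable section

namespace Vale.Agent.P247.H137

open Vale.Agent.P247.H74

theorem per_fract {E : Type*} {f : P2 → E} (hf : Per f) (p : P2) :
    f p = f (Int.fract p.1, Int.fract p.2) := by
  have := hf (-⌊p.1⌋) (-⌊p.2⌋) p
  rw [← this]
  congr 1
  ext
  · simp only [Int.cast_neg]
    exact (Int.self_sub_floor p.1).symm ▸ rfl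
  · simp only [Int.cast_neg]
    exact (Int.self_sub_floor p.2).symm ▸ rfl

theorem exists_lt_one {μ : P2 → ℂ} (hμ : SP μ) (h : ∀ p, ‖μ p‖ < 1) :
    ∃ k, 0 ≤ k ∧ k < 1 ∧ ∀ p, ‖μ p‖ ≤ k := by
  obtain ⟨q, -, hq⟩ := (isCompact_Icc (a := (0 : P2)) (b := 1)).exists_isMaxOn
    ⟨0, ⟨le_refl _, zero_le_one⟩⟩ hμ.cont.norm.continuousOn
  refine ⟨‖μ q‖, norm_nonneg _, h q, fun p => ?_⟩
  rw [per_fract hμ.per p]
  exact hq ⟨⟨Int.fract_nonneg _, Int.fract_nonneg _⟩,
    ⟨(Int.fract_lt_one _).le, (Int.fract_lt_one _).le⟩⟩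

theorem dv_comm (v w : P2) {f : P2 → ℂ} (hf : SP f) : dv v (dv w f) = dv w (dv v f) := by
  have h1 := evC_co ((hf.dv w).dv v)
  have h2 := evC_co ((hf.dv v).dv w)
  rw [← h1, ← h2]
  congr 1
  funext n
  rw [co_dv _ _ (hf.dv w), co_dv _ _ hf, co_dv _ _ (hf.dv v), co_dv _ _ hf]
  ring

theorem norm_sub_I (x y : ℂ) : ((‖x - Complex.I * y‖ ^ 2 - ‖x + Complex.I * y‖ ^ 2 : ℝ) : ℂ) =
    -2 * Complex.I * (conj x * y - conj y * x) := by
  rw [← Complex.normSq_eq_norm_sq, ← Complex.normSq_eq_norm_sq]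
  push_cast
  rw [← Complex.mul_conj, ← Complex.mul_conj]
  simp only [map_sub, map_add, map_mul, Complex.conj_I]
  ring

theorem mean_sq_area {P : P2 → ℂ} (hP : SP P) (a b : ℝ) :
    mean (fun p => ‖(ds P p - Complex.I * a * P p) - Complex.I * (dt P p - Complex.I * b * P p)‖ ^ 2) =
    mean (fun p => ‖(ds P p - Complex.I * a * P p) + Complex.I * (dt P p - Complex.I * b * P p)‖ ^ 2) := by
  have hs : SP (ds P) := hP.dv (1, 0)
  have ht : SP (dt P) := hP.dv (0, 1)
  have hPs : SP fun p => ds P p - Complex.I * a * P p := hs.sub ((SP.const (Complex.I * a)).mul hP)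
  have hPt : SP fun p => dt P p - Complex.I * b * P p := ht.sub ((SP.const (Complex.I * b)).mul hP)
  set Ps := fun p => ds P p - Complex.I * a * P p with ePs
  set Pt := fun p => dt P p - Complex.I * b * P p with ePt
  have c1 : Continuous fun p => ‖Ps p - Complex.I * Pt p‖ ^ 2 :=
    (hPs.cont.sub (continuous_const.mul hPt.cont)).norm.pow 2
  have c2 : Continuous fun p => ‖Ps p + Complex.I * Pt p‖ ^ 2 :=
    (hPs.cont.add (continuous_const.mul hPt.cont)).norm.pow 2
  rw [← sub_eq_zero]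
  show mean (fun p => ‖Ps p - Complex.I * Pt p‖ ^ 2) -
    mean (fun p => ‖Ps p + Complex.I * Pt p‖ ^ 2) = 0
  rw [← mean_sub c1 c2]
  have h1 : ((mean (fun p => ‖Ps p - Complex.I * Pt p‖ ^ 2 - ‖Ps p + Complex.I * Pt p‖ ^ 2) : ℝ) : ℂ)
      = 0 := by
    rw [← mean_ofReal]
    have h2 : (fun p => ((‖Ps p - Complex.I * Pt p‖ ^ 2 - ‖Ps p + Complex.I * Pt p‖ ^ 2 : ℝ) : ℂ)) =
        fun p => -2 * Complex.I * (dv (1, 0) (fun p => conj (P p) * Pt p) p -
          dv (0, 1) (fun p => conj (P p) * Ps p) p) := by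
      funext p
      rw [norm_sub_I, dv_mul _ hP.star hPt, dv_mul _ hP.star hPs, dv_star _ hP, dv_star _ hP, ePs, ePt,
        dv_sub _ ht ((SP.const (Complex.I * b)).mul hP), dv_sub _ hs ((SP.const (Complex.I * a)).mul hP),
        dv_const_mul _ hP, dv_const_mul _ hP, ds_eq, dt_eq, dv_comm (0, 1) (1, 0) hP]
      simp only [map_sub, map_mul, Complex.conj_I, Complex.conj_ofReal]
      ring
    have c3 := ((hP.star.mul hPt).dv (1, 0)).cont
    have c4 := ((hP.star.mul hPs).dv (0, 1)).cont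
    rw [h2, mean_const_mul, mean_sub c3 c4, mean_dv _ (hP.star.mul hPt), mean_dv _ (hP.star.mul hPs)]
    simp
  exact_mod_cast h1

theorem mean_sq_add {F : P2 → ℂ} (hF : Continuous F) (h0 : mean F = 0) (c : ℂ) :
    mean (fun p => ‖c + F p‖ ^ 2) = ‖c‖ ^ 2 + mean (fun p => ‖F p‖ ^ 2) := by
  have h2 : (fun p => ‖c + F p‖ ^ 2) = fun p => (‖c‖ ^ 2 + ‖F p‖ ^ 2) +
      2 * (conj c * F p).re := by
    funext p
    rw [← Complex.normSq_eq_norm_sq, ← Complex.normSq_eq_norm_sq, ← Complex.normSq_eq_norm_sq,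
      Complex.normSq_apply, Complex.normSq_apply, Complex.normSq_apply]
    simp only [Complex.add_re, Complex.add_im, Complex.mul_re, Complex.conj_re, Complex.conj_im]
    ring
  have c0 : Continuous fun p => conj c * F p := continuous_const.mul hF
  have c1 : Continuous fun _ : P2 => ‖c‖ ^ 2 := continuous_const
  have c2 : Continuous fun p => ‖F p‖ ^ 2 := hF.norm.pow 2
  have c3 : Continuous fun p => 2 * (conj c * F p).re :=
    continuous_const.mul (Complex.continuous_re.comp c0)
  have c4 : Continuous fun p => ‖c‖ ^ 2 + ‖F p‖ ^ 2 := c1.add c2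
  have h5 : mean (fun p => 2 * (conj c * F p).re) = 0 := by
    have h7 : mean (fun p => 2 * (conj c * F p).re) = 2 * mean (fun p => (conj c * F p).re) :=
      integral_const_mul _ _
    rw [h7, mean_re c0, mean_const_mul, h0, mul_zero, Complex.zero_re, mul_zero]
  rw [h2, mean_add c4 c3, mean_add c1 c2, h5, add_zero, mean_const]

theorem eq_zero_of_mean_sq {F : P2 → ℂ} (hF : SP F) (h0 : mean (fun p => ‖F p‖ ^ 2) ≤ 0) (p : P2) :
    F p = 0 := by
  refine eq_zero_of_co hF.cont hF.per (fun n => ?_) p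
  have h1 := bessel {n} hF.cont
  rw [Finset.sum_singleton] at h1
  have h2 : ‖co n F‖ ^ 2 = 0 := le_antisymm (h1.trans h0) (by positivity)
  simpa using h2

/-- the operators `∂ₛ + ε ∂ₜ` -/
def dz (ε : ℂ) (f : P2 → ℂ) (p : P2) : ℂ := ds f p + ε * dt f p

section
variable {f g : P2 → ℂ} (ε : ℂ)

theorem SP.dz (hf : SP f) : SP (dz ε f) := (hf.dv (1, 0)).add ((SP.const ε).mul (hf.dv (0, 1)))

theorem dz_add (hf : SP f) (hg : SP g) : dz ε (fun p => f p + g p) = fun p => dz ε f p + dz ε g p := by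
  funext p
  simp only [dz, ds_eq, dt_eq, dv_add _ hf hg]
  ring

theorem dz_sub (hf : SP f) (hg : SP g) : dz ε (fun p => f p - g p) = fun p => dz ε f p - dz ε g p := by
  funext p
  simp only [dz, ds_eq, dt_eq, dv_sub _ hf hg]
  ring

theorem dz_mul (hf : SP f) (hg : SP g) :
    dz ε (fun p => f p * g p) = fun p => dz ε f p * g p + f p * dz ε g p := by
  funext p
  simp only [dz, ds_eq, dt_eq, dv_mul _ hf hg]
  ring

theorem dz_const_mul (hf : SP f) (c : ℂ) : dz ε (fun p => c * f p) = fun p => c * dz ε f p := by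
  funext p
  simp only [dz, ds_eq, dt_eq, dv_const_mul _ hf]
  ring

theorem dz_const (c : ℂ) : dz ε (fun _ => c) = fun _ => 0 := by
  funext p
  simp only [dz, ds_eq, dt_eq, dv_const]
  ring

theorem dz_exp (hf : SP f) :
    dz ε (fun p => Complex.exp (f p)) = fun p => Complex.exp (f p) * dz ε f p := by
  funext p
  simp only [dz, ds_eq, dt_eq, dv_exp _ hf]
  ring

theorem dz_comm (δ : ℂ) (hf : SP f) : dz ε (dz δ f) = dz δ (dz ε f) := by
  have e1 : dz δ f = fun p => dv (1, 0) f p + δ * dv (0, 1) f p := rfl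
  have e2 : dz ε f = fun p => dv (1, 0) f p + ε * dv (0, 1) f p := rfl
  funext p
  rw [e1, e2]
  rw [dz_add ε (hf.dv _) ((SP.const δ).mul (hf.dv _)), dz_add δ (hf.dv _) ((SP.const ε).mul (hf.dv _)),
    dz_const_mul ε (hf.dv _), dz_const_mul δ (hf.dv _)]
  simp only [dz, ds_eq, dt_eq, dv_comm (0, 1) (1, 0) hf]
  ring

theorem mean_dz (hf : SP f) : mean (dz ε f) = 0 := by
  have e2 : dz ε f = fun p => dv (1, 0) f p + ε * dv (0, 1) f p := rfl
  have c2 : Continuous fun p => ε * dv (0, 1) f p := continuous_const.mul (hf.dv _).cont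
  rw [e2, mean_add (hf.dv (1, 0)).cont c2, mean_const_mul, mean_dv _ hf, mean_dv _ hf]
  simp

end

/-- **Uniformisation of the torus.** -/
theorem U (hU : U1_statement) : U_statement := by
  intro M hMs hMp hM
  have hMS : SP M := ⟨hMs, hMp⟩
  -- the Beltrami coefficient
  have hden : ∀ p, 1 - Complex.I * M p ≠ 0 := by
    intro p h
    have h1 := congrArg Complex.re h
    simp at h1
    linarith [hM p]
  set μ : P2 → ℂ := fun p => (1 + Complex.I * M p) * (1 - Complex.I * M p)⁻¹ with hμdef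
  have hμ : SP μ := ((SP.const 1).add ((SP.const Complex.I).mul hMS)).mul
    (((SP.const 1).sub ((SP.const Complex.I).mul hMS)).inv hden)
  have hμlt : ∀ p, ‖μ p‖ < 1 := by
    intro p
    simp only [hμdef]
    rw [norm_mul, norm_inv, ← div_eq_mul_inv, div_lt_one (norm_pos_iff.2 (hden p))]
    have h1 : ‖1 + Complex.I * M p‖ ^ 2 < ‖1 - Complex.I * M p‖ ^ 2 := by
      rw [← Complex.normSq_eq_norm_sq, ← Complex.normSq_eq_norm_sq, Complex.normSq_apply,
        Complex.normSq_apply]
      simp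
      nlinarith [hM p]
    exact lt_of_pow_lt_pow_left₀ 2 (norm_nonneg _) h1
  obtain ⟨k, hk0, hk1, hμk⟩ := exists_lt_one hμ hμlt
  have hk2 : k ^ 2 < 1 := by nlinarith
  -- the two solutions
  obtain ⟨h1, c1, hh1s, hh1p, he1⟩ := hU μ k hμ.smooth hμ.per hk1 hμk μ hμ.smooth hμ.per
  have hdμ : SP (dz (-Complex.I) μ) := hμ.dz _
  obtain ⟨h2, c2, hh2s, hh2p, he2⟩ := hU μ k hμ.smooth hμ.per hk1 hμk (dz (-Complex.I) μ)
    hdμ.smooth hdμ.per
  have hh1 : SP h1 := ⟨hh1s, hh1p⟩
  have hh2 : SP h2 := ⟨hh2s, hh2p⟩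
  have e1 : ∀ p, dz Complex.I h1 p = (μ p * dz (-Complex.I) h1 p + μ p) - c1 := by
    intro p
    have := he1 p
    simp only [dz]
    rw [this]; ring
  have e2 : ∀ p, dz Complex.I h2 p = μ p * dz (-Complex.I) h2 p + dz (-Complex.I) μ p - c2 := by
    intro p
    have := he2 p
    simp only [dz] at this ⊢
    rw [this]; ring
  -- the derivative
  set w : P2 → ℂ := fun p => 2 + 2 * dz (-Complex.I) h1 p with hw
  have hd1 : SP (dz (-Complex.I) h1) := hh1.dz _
  have hwS : SP w := (SP.const 2).add ((SP.const 2).mul hd1)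
  have hμw : ∀ p, μ p * w p = 2 * c1 + 2 * dz Complex.I h1 p := by
    intro p
    rw [e1 p, hw]
    ring
  have hmw : mean w = 2 := by
    have cc : Continuous fun p => 2 * dz (-Complex.I) h1 p := continuous_const.mul hd1.cont
    rw [hw, mean_add continuous_const cc, mean_const, mean_const_mul, mean_dz _ hh1]
    simp
  -- the first area identity
  have hA : mean (fun p => ‖dz (-Complex.I) h1 p‖ ^ 2) = mean (fun p => ‖dz Complex.I h1 p‖ ^ 2) := by
    have h3 := mean_sq_area hh1 0 0
    simp only [Complex.ofReal_zero, mul_zero, zero_mul, sub_zero] at h3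
    have h4 : ∀ p, ds h1 p - Complex.I * dt h1 p = dz (-Complex.I) h1 p := by
      intro p; simp only [dz]; ring
    have h5 : ∀ p, ds h1 p + Complex.I * dt h1 p = dz Complex.I h1 p := fun p => rfl
    simp only [h4, h5] at h3
    exact h3
  have hW : mean (fun p => ‖w p‖ ^ 2) = 4 + 4 * mean (fun p => ‖dz (-Complex.I) h1 p‖ ^ 2) := by
    have cc : Continuous fun p => 2 * dz (-Complex.I) h1 p := continuous_const.mul hd1.cont
    rw [hw, mean_sq_add cc (by rw [mean_const_mul, mean_dz _ hh1, mul_zero])]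
    have h3 : (fun p => ‖2 * dz (-Complex.I) h1 p‖ ^ 2) =
        fun p => 4 * ‖dz (-Complex.I) h1 p‖ ^ 2 := by
      funext p
      rw [norm_mul, mul_pow, Complex.norm_ofNat]
      norm_num
    have h4 : mean (fun p => 4 * ‖dz (-Complex.I) h1 p‖ ^ 2) =
        4 * mean (fun p => ‖dz (-Complex.I) h1 p‖ ^ 2) := integral_const_mul _ _
    rw [h3, h4, Complex.norm_ofNat]
    norm_num
  have hW2 : mean (fun p => ‖μ p * w p‖ ^ 2) =
      4 * ‖c1‖ ^ 2 + 4 * mean (fun p => ‖dz Complex.I h1 p‖ ^ 2) := by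
    have cc : Continuous fun p => 2 * dz Complex.I h1 p := continuous_const.mul (hh1.dz _).cont
    simp only [hμw]
    rw [mean_sq_add cc (by rw [mean_const_mul, mean_dz _ hh1, mul_zero])]
    have h3 : (fun p => ‖2 * dz Complex.I h1 p‖ ^ 2) = fun p => 4 * ‖dz Complex.I h1 p‖ ^ 2 := by
      funext p
      rw [norm_mul, mul_pow, Complex.norm_ofNat]
      norm_num
    have h4 : mean (fun p => 4 * ‖dz Complex.I h1 p‖ ^ 2) =
        4 * mean (fun p => ‖dz Complex.I h1 p‖ ^ 2) := integral_const_mul _ _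
    rw [h3, h4, norm_mul, mul_pow, Complex.norm_ofNat]
    norm_num
  have hle : ∀ {F : P2 → ℂ}, SP F → mean (fun p => ‖μ p * F p‖ ^ 2) ≤
      k ^ 2 * mean (fun p => ‖F p‖ ^ 2) := by
    intro F hF
    have h3 : mean (fun p => k ^ 2 * ‖F p‖ ^ 2) = k ^ 2 * mean (fun p => ‖F p‖ ^ 2) :=
      integral_const_mul _ _
    rw [← h3]
    refine mean_mono ((hμ.cont.mul hF.cont).norm.pow 2) (continuous_const.mul (hF.cont.norm.pow 2))
      fun p => ?_
    rw [norm_mul, mul_pow]
    exact mul_le_mul_of_nonneg_right (pow_le_pow_left₀ (norm_nonneg _) (hμk p) 2) (by positivity)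
  have hc1 : ‖c1‖ ^ 2 < 1 := by
    have h3 := hle hwS
    have h4 : 0 ≤ mean (fun p => ‖dz (-Complex.I) h1 p‖ ^ 2) := mean_nonneg fun p => by positivity
    rw [hW2, hW, ← hA] at h3
    nlinarith
  -- the constants
  set D : ℝ := 1 - ‖c1‖ ^ 2 with hD
  have hD0 : (D : ℂ) ≠ 0 := by
    have : D ≠ 0 := by rw [hD]; linarith
    exact_mod_cast this
  set α : ℂ := (conj c1 * c2 - conj c2) / (2 * D) with hα
  have hDc : (D : ℂ) = 1 - c1 * conj c1 := by
    rw [hD, Complex.mul_conj']
    push_cast; ring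
  have hβ : 2 * (-conj α) = 2 * α * c1 + c2 := by
    have h3 : conj α = (c1 * conj c2 - c2) / (2 * D) := by
      rw [hα, map_div₀, map_sub, map_mul, map_mul, Complex.conj_conj, Complex.conj_conj,
        Complex.conj_ofReal, map_ofNat]
    rw [h3, hα]
    field_simp
    rw [hDc]
    ring
  set ρ : P2 → ℂ := fun p => 2 * α * h1 p + h2 p with hρ
  have hρS : SP ρ := ((SP.const (2 * α)).mul hh1).add hh2
  set P : P2 → ℂ := fun p => w p * Complex.exp (-ρ p) with hP
  have hES : SP fun p => Complex.exp (-ρ p) := hρS.neg.exp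
  have hPS : SP P := hwS.mul hES
  have hdzP : ∀ ε p, dz ε P p = Complex.exp (-ρ p) * (dz ε w p - w p * dz ε ρ p) := by
    intro ε p
    have h3 : (fun p => -ρ p) = fun p => (-1) * ρ p := by funext p; ring
    rw [hP, dz_mul ε hwS hES, dz_exp ε hρS.neg, h3, dz_const_mul ε hρS]
    ring
  have hdzρ : ∀ ε p, dz ε ρ p = 2 * α * dz ε h1 p + dz ε h2 p := by
    intro ε p
    rw [hρ, dz_add ε ((SP.const (2 * α)).mul hh1) hh2, dz_const_mul ε hh1]
  have hdzw : ∀ ε p, dz ε w p = 2 * dz ε (dz (-Complex.I) h1) p := by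
    intro ε p
    rw [hw, dz_add ε (SP.const 2) ((SP.const 2).mul hd1), dz_const, dz_const_mul ε hd1]
    simp only [zero_add]
  have hwbar : ∀ p, dz Complex.I w p = μ p * dz (-Complex.I) w p + dz (-Complex.I) μ p * w p := by
    intro p
    have h3 : dz Complex.I h1 = fun p => (μ p * dz (-Complex.I) h1 p + μ p) - c1 := funext e1
    rw [hdzw, hdzw, dz_comm _ _ hh1, h3, dz_sub _ ((hμ.mul hd1).add hμ) (SP.const c1), dz_const,
      dz_add _ (hμ.mul hd1) hμ, dz_mul _ hμ hd1, hw]
    ring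
  -- the covariant derivatives
  have hkey : ∀ p, dz Complex.I P p - 2 * (-conj α) * P p =
      μ p * (dz (-Complex.I) P p - 2 * α * P p) := by
    intro p
    rw [hdzP, hdzP, hwbar, hdzρ, hdzρ, e1, e2, hβ, hP]
    ring
  set a : ℝ := 2 * α.im with ha
  set b : ℝ := 2 * α.re with hb
  have hia : Complex.I * a = α - conj α := by
    rw [ha, Complex.sub_conj]
    push_cast; ring
  have hib : Complex.I * b = Complex.I * (α + conj α) := by
    rw [hb, Complex.add_conj]
  have hI2 : Complex.I * Complex.I = -1 := Complex.I_mul_I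
  have hminus : ∀ p, (ds P p - Complex.I * a * P p) - Complex.I * (dt P p - Complex.I * b * P p) =
      dz (-Complex.I) P p - 2 * α * P p := by
    intro p
    rw [hia, hib]
    simp only [dz]
    linear_combination ((α + conj α) * P p) * hI2
  have hplus : ∀ p, (ds P p - Complex.I * a * P p) + Complex.I * (dt P p - Complex.I * b * P p) =
      dz Complex.I P p - 2 * (-conj α) * P p := by
    intro p
    rw [hia, hib]
    simp only [dz]
    linear_combination (-(α + conj α) * P p) * hI2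
  have hQS : SP fun p => dz (-Complex.I) P p - 2 * α * P p :=
    (hPS.dz _).sub ((SP.const (2 * α)).mul hPS)
  have hQ0 : ∀ p, dz (-Complex.I) P p - 2 * α * P p = 0 := by
    refine eq_zero_of_mean_sq hQS ?_
    have h3 := mean_sq_area hPS a b
    simp only [hminus, hplus, hkey] at h3
    have h4 := hle hQS
    rw [← h3] at h4
    have h5 : 0 ≤ mean (fun p => ‖dz (-Complex.I) P p - 2 * α * P p‖ ^ 2) :=
      mean_nonneg fun p => by positivity
    nlinarith
  have hQ1 : ∀ p, dz Complex.I P p - 2 * (-conj α) * P p = 0 := by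
    intro p
    rw [hkey, hQ0, mul_zero]
  have hPs : ∀ p, ds P p = Complex.I * a * P p := by
    intro p
    have h3 := hQ0 p
    have h4 := hQ1 p
    rw [← hminus] at h3
    rw [← hplus] at h4
    linear_combination (h3 + h4) / 2
  have hPt : ∀ p, dt P p = Complex.I * b * P p := by
    intro p
    have h3 := hQ0 p
    have h4 := hQ1 p
    rw [← hminus] at h3
    rw [← hplus] at h4
    have h5 : Complex.I * (dt P p - Complex.I * b * P p) = 0 := by
      linear_combination (h4 - h3) / 2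
    have h6 := (mul_eq_zero.1 h5).resolve_left Complex.I_ne_zero
    linear_combination h6
  have hNc : ∀ p q, conj (P p) * P p = conj (P q) * P q := by
    have hNS : SP fun p => conj (P p) * P p := hPS.star.mul hPS
    refine is_const_of_fderiv_eq_zero (𝕜 := ℝ) (hNS.smooth.differentiable (by simp)) fun p => ?_
    have h3 : ∀ v : P2, dv v (fun p => conj (P p) * P p) p = 0 := by
      intro v
      have h4 := dv_vec hNS v.1 v.2 p
      have h5 : ds (fun p => conj (P p) * P p) p = 0 := by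
        rw [ds_eq, dv_mul _ hPS.star hPS, dv_star _ hPS, ← ds_eq]
        simp only [hPs, map_mul, Complex.conj_I, Complex.conj_ofReal]
        ring
      have h6 : dt (fun p => conj (P p) * P p) p = 0 := by
        rw [dt_eq, dv_mul _ hPS.star hPS, dv_star _ hPS, ← dt_eq]
        simp only [hPt, map_mul, Complex.conj_I, Complex.conj_ofReal]
        ring
      rw [h5, h6] at h4
      simpa using h4
    exact ContinuousLinearMap.ext h3
  have hP0 : ∀ p, P p ≠ 0 := by
    intro p hp
    have h3 : ∀ q, w q = 0 := by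
      intro q
      have h4 := hNc q p
      rw [hp, mul_zero, Complex.conj_mul'] at h4
      have h5 : P q = 0 := by
        have : ‖P q‖ ^ 2 = 0 := by exact_mod_cast h4
        simpa using this
      rw [hP] at h5
      exact (mul_eq_zero.1 h5).resolve_right (Complex.exp_ne_zero _)
    have h6 : w = fun _ => 0 := funext h3
    rw [h6, mean_const] at hmw
    norm_num at hmw
  have hw0 : ∀ p, w p ≠ 0 := by
    intro p h
    apply hP0 p
    rw [hP]
    simp only
    rw [h, zero_mul]
  -- the conclusion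
  have hc1' : (1 : ℂ) + c1 ≠ 0 := by
    intro h
    have h3 : c1 = -1 := by linear_combination h
    rw [h3] at hc1
    norm_num at hc1
  have hds : ∀ p, 1 + c1 + 2 * ds h1 p = w p * (1 + μ p) / 2 := by
    intro p
    have h3 := hμw p
    have h4 : w p = 2 + 2 * dz (-Complex.I) h1 p := rfl
    simp only [dz] at h3 h4
    linear_combination (-1 / 2) * h3 + (-1 / 2) * h4
  have hdt : ∀ p, Complex.I * (1 - c1) + 2 * dt h1 p = Complex.I * (w p * (1 - μ p) / 2) := by
    intro p
    have h3 := hμw p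
    have h4 : w p = 2 + 2 * dz (-Complex.I) h1 p := rfl
    simp only [dz] at h3 h4
    linear_combination (Complex.I / 2) * h3 - (Complex.I / 2) * h4 + (2 * dt h1 p) * hI2
  have hμM : ∀ p, M p * (1 + μ p) = Complex.I * (1 - μ p) := by
    intro p
    have h3 := mul_inv_cancel₀ (hden p)
    simp only [hμdef]
    linear_combination (-(M p - Complex.I)) * h3 + (2 * M p * (1 - Complex.I * M p)⁻¹) * hI2
  have hμ1 : ∀ p, 1 + μ p ≠ 0 := by
    intro p h
    have h3 : μ p = -1 := by linear_combination h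
    have h4 := hμlt p
    rw [h3] at h4
    norm_num at h4
  refine ⟨Complex.I * (1 - c1) / (1 + c1), fun p => 2 / (1 + c1) * h1 p, ?_, ?_, ?_, ?_, ?_⟩
  · have h3 : Complex.I * (1 - c1) / (1 + c1) =
        ((1 / ‖1 + c1‖ ^ 2 : ℝ) : ℂ) * (Complex.I * (1 - c1) * conj (1 + c1)) := by
      have h4 : ((‖1 + c1‖ ^ 2 : ℝ) : ℂ) = (1 + c1) * conj (1 + c1) := by
        rw [Complex.mul_conj']; push_cast; rfl
      have h5 : conj (1 + c1) ≠ 0 := by
        intro h
        apply hc1'
        have := congrArg conj h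
        simpa using this
      rw [Complex.ofReal_div, h4, Complex.ofReal_one]
      field_simp
    rw [h3, Complex.im_ofReal_mul]
    have h6 : (Complex.I * (1 - c1) * conj (1 + c1)).im = 1 - ‖c1‖ ^ 2 := by
      rw [← Complex.normSq_eq_norm_sq, Complex.normSq_apply]
      simp
      ring
    rw [h6]
    have h7 : 0 < ‖1 + c1‖ := norm_pos_iff.2 hc1'
    have h8 : 0 < 1 - ‖c1‖ ^ 2 := by linarith
    positivity
  · exact contDiff_const.mul hh1.smooth
  · intro m n p
    simp only
    rw [hh1.per]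
  · intro p
    rw [ds_eq, dt_eq, dv_const_mul _ hh1, dv_const_mul _ hh1, ← ds_eq, ← dt_eq]
    have h3 := hds p
    have h4 := hdt p
    have h5 := hμM p
    have h6 : Complex.I * (1 - c1) / (1 + c1) + 2 / (1 + c1) * dt h1 p =
        (Complex.I * (1 - c1) + 2 * dt h1 p) / (1 + c1) := by
      field_simp
    have h7 : 1 + 2 / (1 + c1) * ds h1 p = (1 + c1 + 2 * ds h1 p) / (1 + c1) := by
      field_simp
    rw [h6, h7, h3, h4]
    linear_combination (-(w p) / 2 / (1 + c1)) * h5
  · intro p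
    rw [ds_eq, dv_const_mul _ hh1, ← ds_eq]
    have h7 : 1 + 2 / (1 + c1) * ds h1 p = (1 + c1 + 2 * ds h1 p) / (1 + c1) := by
      field_simp
    rw [h7, hds p]
    exact div_ne_zero (div_ne_zero (mul_ne_zero (hw0 p) (hμ1 p)) two_ne_zero) hc1'

end Vale.Agent.P247.H137
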